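import Vale.Agent.P092.H100.Gr1
import Vale.Agent.P092.H618.RkDefs

/-!
P092, TEAM N (helper68), [N-GR]: (SPAN), (JOIN) and the instance of `TGeo` for the Grassmannians
of `k^n`.
-/

set_option linter.all false

open TopologicalSpace Topology Module Set Filter
open scoped Matrix

namespace Vale.Agent.P092.H68.Gras

open Vale.Agent.P092.H100.Gr

/-- An open continuous surjection of a metric space has a section which is continuous at a given
point and has a given value there. -/
theorem exists_section {X Y : Type*} [PseudoMetricSpace X] [TopologicalSpace Y] [T1Space Y]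
    {f : X → Y} (hs : Function.Surjective f) (hc : Continuous f) (ho : IsOpenMap f) (x₀ : X) :
    ∃ s : Y → X, (∀ y, f (s y) = y) ∧ s (f x₀) = x₀ ∧ ContinuousAt s (f x₀) := by
  classical
  have h1 : ∀ y, y ≠ f x₀ → ∃ x, f x = y ∧ dist x₀ x < 2 * Metric.infDist x₀ (f ⁻¹' {y}) := by
    intro y hy
    have hcl : IsClosed (f ⁻¹' {y}) := isClosed_singleton.preimage hc
    have hne : (f ⁻¹' {y}).Nonempty := by
      obtain ⟨x, rfl⟩ := hs y
      exact ⟨x, rfl⟩
    have hpos : 0 < Metric.infDist x₀ (f ⁻¹' {y}) :=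
      (hcl.notMem_iff_infDist_pos hne).1 fun h => hy h.symm
    obtain ⟨x, hx, hd⟩ := (Metric.infDist_lt_iff (r := 2 * Metric.infDist x₀ (f ⁻¹' {y})) hne).1
      (by linarith)
    exact ⟨x, hx, hd⟩
  let s : Y → X := fun y => if h : y = f x₀ then x₀ else (h1 y h).choose
  have hs1 : ∀ y (h : y ≠ f x₀), f (s y) = y ∧
      dist x₀ (s y) < 2 * Metric.infDist x₀ (f ⁻¹' {y}) := by
    intro y h
    have e : s y = (h1 y h).choose := dif_neg h
    rw [e]
    exact (h1 y h).choose_spec
  have hs0 : s (f x₀) = x₀ := dif_pos rfl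
  refine ⟨s, fun y => ?_, hs0, ?_⟩
  · by_cases h : y = f x₀
    · rw [h, hs0]
    · exact (hs1 y h).1
  · rw [ContinuousAt, hs0, Metric.tendsto_nhds]
    intro ε hε
    have h2 : f '' Metric.ball x₀ (ε / 2) ∈ 𝓝 (f x₀) :=
      (ho _ Metric.isOpen_ball).mem_nhds ⟨x₀, Metric.mem_ball_self (by positivity), rfl⟩
    filter_upwards [h2] with y hy
    by_cases h : y = f x₀
    · rw [h, hs0, dist_self]
      exact hε
    · obtain ⟨x, hx, hxy⟩ := hy
      have h3 := (hs1 y h).2
      have h4 : Metric.infDist x₀ (f ⁻¹' {y}) ≤ dist x₀ x := Metric.infDist_le_dist_of_mem hxy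
      rw [Metric.mem_ball, dist_comm] at hx
      rw [dist_comm]
      linarith

section top

variable {k : Type*} [NontriviallyNormedField k] {ι : Type*} [Fintype ι] {i j : ℕ}

theorem isOpen_li : IsOpen {v : Fin j → ι → k | LinearIndependent k v} := by
  have e : {v : Fin j → ι → k | LinearIndependent k v} = ⋃ I : Fin j → ι, {v | mn I v ≠ 0} := by
    ext v
    rw [mem_iUnion]
    exact li_iff
  rw [e]
  exact isOpen_iUnion fun I => isOpen_ne_fun (mn_cont I) continuous_const

noncomputable instance psFr : PseudoMetricSpace (Fr k ι j) :=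
  inferInstanceAs (PseudoMetricSpace {v : Fin j → ι → k // LinearIndependent k v})

/-- sections of the frame map, continuous at a point -/
theorem exists_sec (v₀ : Fr k ι j) : ∃ s : Gr k ι j → Fr k ι j, (∀ L, sp (s L) = L) ∧
    s (sp v₀) = v₀ ∧ ContinuousAt s (sp v₀) :=
  exists_section sp_surj sp_cont sp_open v₀

open Classical in
/-- the span of a family, if it is independent -/
noncomputable def spT (N₀ : Gr k ι j) (v : Fin j → ι → k) : Gr k ι j :=
  if h : LinearIndependent k v then sp ⟨v, h⟩ else N₀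

theorem spT_val (N₀ : Gr k ι j) {v : Fin j → ι → k} (h : LinearIndependent k v) :
    (spT N₀ v).1 = Submodule.span k (range v) := by
  unfold spT
  rw [dif_pos h]
  rfl

theorem spT_cont (N₀ : Gr k ι j) {v : Fin j → ι → k} (h : LinearIndependent k v) :
    ContinuousAt (spT N₀) v := by
  have h1 : ContinuousOn (spT N₀) {v : Fin j → ι → k | LinearIndependent k v} := by
    refine continuousOn_iff_continuous_restrict.2 ?_
    have e : Continuous fun v : {v : Fin j → ι → k // LinearIndependent k v} => sp (k := k) v :=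
      sp_cont
    refine e.congr fun v => ?_
    change sp (k := k) v = spT N₀ v.1
    have hv : LinearIndependent k v.1 := v.2
    unfold spT
    rw [dif_pos hv]
  exact h1.continuousAt (isOpen_li.mem_nhds h)

/-- **(SPAN)** if `L ⊄ L'` there is a `(j+1)`-dimensional subspace of `L + L'`, containing `L'`,
which depends continuously on `L`, `L'` at the given point. -/
theorem span_at {l : ℕ} (hl : l = j + 1) (L : Gr k ι i) (L' : Gr k ι j) (h : ¬ L.1 ≤ L'.1) :
    ∃ s : Gr k ι i × Gr k ι j → Gr k ι l, ContinuousAt s (L, L') ∧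
      ∀ᶠ q in 𝓝 (L, L'), q.2.1 ≤ (s q).1 ∧ (s q).1 ≤ q.1.1 ⊔ q.2.1 := by
  subst hl
  obtain ⟨v₀, rfl⟩ := sp_surj L
  obtain ⟨w₀, rfl⟩ := sp_surj L'
  obtain ⟨a, ha⟩ : ∃ a, v₀.1 a ∉ (sp w₀).1 := by
    by_contra hc
    push Not at hc
    apply h
    change Submodule.span k (range v₀.1) ≤ _
    rw [Submodule.span_le]
    rintro _ ⟨a, rfl⟩
    exact hc a
  obtain ⟨s₁, hs1, hs1', hs1c⟩ := exists_sec v₀
  obtain ⟨s₂, hs2, hs2', hs2c⟩ := exists_sec w₀
  let φ : Gr k ι i × Gr k ι j → (Fin (j + 1) → ι → k) :=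
    fun q => Fin.cons (α := fun _ => ι → k) ((s₁ q.1).1 a) (s₂ q.2).1
  have h0 : φ (sp v₀, sp w₀) = Fin.cons (α := fun _ => ι → k) (v₀.1 a) w₀.1 := by
    change Fin.cons (α := fun _ => ι → k) ((s₁ (sp v₀)).1 a) (s₂ (sp w₀)).1 = _
    rw [hs1', hs2']
  have hli : LinearIndependent k (φ (sp v₀, sp w₀)) := by
    rw [h0]
    exact linearIndependent_finCons.2 ⟨w₀.2, ha⟩
  have hφ : ContinuousAt φ (sp v₀, sp w₀) := by
    have c1 : ContinuousAt (fun q : Gr k ι i × Gr k ι j => (s₁ q.1).1) (sp v₀, sp w₀) :=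
      fr_val_cont.continuousAt.comp (f := fun q : Gr k ι i × Gr k ι j => s₁ q.1)
        (hs1c.comp (f := Prod.fst) continuousAt_fst)
    have c2 : ContinuousAt (fun q : Gr k ι i × Gr k ι j => (s₂ q.2).1) (sp v₀, sp w₀) :=
      fr_val_cont.continuousAt.comp (f := fun q : Gr k ι i × Gr k ι j => s₂ q.2)
        (hs2c.comp (f := Prod.snd) continuousAt_snd)
    rw [continuousAt_pi]
    intro b
    refine Fin.cases ?_ (fun b => ?_) b
    · exact (continuous_apply a).continuousAt.comp c1
    · exact (continuous_apply b).continuousAt.comp c2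
  let N₀ : Gr k ι (j + 1) := sp ⟨_, hli⟩
  refine ⟨fun q => spT N₀ (φ q), ?_, ?_⟩
  · exact (spT_cont N₀ hli).comp hφ
  · filter_upwards [hφ.eventually (isOpen_li.mem_nhds hli)] with q hq
    have e1 : (spT N₀ (φ q)).1 = Submodule.span k (range (φ q)) := spT_val N₀ hq
    have e2 : range (φ q) = insert ((s₁ q.1).1 a) (range (s₂ q.2).1) := by
      change range (Fin.cons (α := fun _ => ι → k) ((s₁ q.1).1 a) (s₂ q.2).1) = _
      rw [Fin.range_cons]
    have e3 : q.1.1 = Submodule.span k (range (s₁ q.1).1) := by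
      conv_lhs => rw [← hs1 q.1]
      rfl
    have e4 : q.2.1 = Submodule.span k (range (s₂ q.2).1) := by
      conv_lhs => rw [← hs2 q.2]
      rfl
    rw [e1, e2]
    constructor
    · rw [e4]
      exact Submodule.span_mono (subset_insert _ _)
    · rw [Submodule.span_le, insert_subset_iff]
      constructor
      · refine (le_sup_left : q.1.1 ≤ q.1.1 ⊔ q.2.1) ?_
        rw [e3]
        exact Submodule.subset_span ⟨a, rfl⟩
      · refine Subset.trans ?_ (le_sup_right : q.2.1 ≤ q.1.1 ⊔ q.2.1)
        rw [e4]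
        exact Submodule.subset_span

/-! ### The instance of `TGeo` -/

end top

section inst

variable (k : Type) [NontriviallyNormedField k] [ProperSpace k] (n : ℕ)

/-- the compact metric spaces of the rank count: `d`-dimensional subspaces of `k^n`, `d` capped
by `n` -/
def YG (d : ℕ) : Type := Gr k (Fin n) (min d n)

noncomputable instance metYG (d : ℕ) : MetricSpace (YG k n d) :=
  metrizableSpaceMetric (Gr k (Fin n) (min d n))

instance cptYG (d : ℕ) : CompactSpace (YG k n d) :=
  inferInstanceAs (CompactSpace (Gr k (Fin n) (min d n)))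

variable {k n}

/-- inclusion -/
def IG (i j : ℕ) (L : YG k n i) (L' : YG k n j) : Prop := L.1 ≤ L'.1

theorem exists_sub {V : Type*} [AddCommGroup V] [Module k V] [FiniteDimensional k V] {d : ℕ}
    (h : d ≤ finrank k V) : ∃ L : Submodule k V, finrank k L = d := by
  obtain ⟨v, hv⟩ := exists_linearIndependent_of_le_finrank h
  exact ⟨Submodule.span k (range v), (finrank_span_eq_card hv).trans (Fintype.card_fin d)⟩

instance neYG (d : ℕ) : Nonempty (YG k n d) := by
  obtain ⟨L, hL⟩ := exists_sub (k := k) (V := Fin n → k) (d := min d n) (by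
    rw [finrank_fintype_fun_eq_card, Fintype.card_fin]
    exact min_le_right _ _)
  exact ⟨⟨L, hL⟩⟩

theorem tgeo (N : ℕ) (hN : N + 1 = n) : H618.TGeo N (YG k n) IG where
  closed i j := incG_closed (k := k) (ι := Fin n) (i := min i n) (j := min j n)
  refl i L L' := ⟨fun h => eq_of_le h, fun h => le_of_eq (congrArg Subtype.val h)⟩
  span := by
    intro i j hi hij hj L L' hLL
    have hl : min (j + 1) n = min j n + 1 := by omega
    obtain ⟨s, hs, hev⟩ := span_at (k := k) hl (L : Gr k (Fin n) (min i n)) L' hLL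
    refine ⟨s, hs, ?_⟩
    filter_upwards [hev] with q hq M h1 h2
    exact hq.2.trans (sup_le h1 h2)

end inst

end Vale.Agent.P092.H68.Gras
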