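import Vale.Agent.P092.SD.Defs

/-!
P092, Team D (helper68): supports, incidence and Lipschitz functions under translation.
-/

set_option linter.all false

open scoped InnerProductSpace ENNReal LinearAlgebra.Projectivization
open Filter Topology ContinuousLinearMap MeasureTheory TopologicalSpace

namespace Vale.Agent.P092.H68

open Vale.Agent.P092.SD
open Vale.Agent.P092.H820 (inc3 inc3_closed pj pj_surj hP)

section geo

variable {k : Type} [NontriviallyNormedField k]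

theorem tsupport_act (g : G3 k) (f : CP k) :
    tsupport (act g f) = (fun x => g⁻¹ • x) ⁻¹' tsupport f :=
  tsupport_comp_eq_preimage (g := (f : PP k → ℂ)) (hP g⁻¹)

theorem tsupport_star (f : CP k) : tsupport (star f : CP k) = tsupport f := by
  unfold tsupport
  congr 1
  ext x
  simp only [Function.mem_support, ContinuousMap.star_apply, ne_eq, star_eq_zero]

theorem act_star (g : G3 k) (f : CP k) : act g (star f) = star (act g f) := rfl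

theorem inc_tau (g : G3 k) (x l : PP k) :
    (g • x, tau k g • l) ∈ inc3 (k := k) ↔ (x, l) ∈ inc3 (k := k) := by
  obtain ⟨v, rfl⟩ := pj_surj x
  obtain ⟨w, rfl⟩ := pj_surj l
  change (g.1.mulVec v.1) ⬝ᵥ ((g⁻¹).1.transpose.mulVec w.1) = 0 ↔ v.1 ⬝ᵥ w.1 = 0
  have : (g.1.mulVec v.1) ⬝ᵥ ((g⁻¹).1.transpose.mulVec w.1) = v.1 ⬝ᵥ w.1 := by
    rw [Matrix.dotProduct_mulVec, Matrix.vecMul_transpose, Matrix.mulVec_mulVec]
    have h1 : (g⁻¹).1 * g.1 = 1 := by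
      rw [← Matrix.SpecialLinearGroup.coe_mul, inv_mul_cancel, Matrix.SpecialLinearGroup.coe_one]
    rw [h1, Matrix.one_mulVec]
  rw [this]

theorem ninc_tau (g : G3 k) {A B : Set (PP k)} (h : NInc A B) :
    NInc ((fun x => g⁻¹ • x) ⁻¹' A) ((fun x => (tau k g)⁻¹ • x) ⁻¹' B) := by
  intro x hx l hl hxl
  refine h _ hx _ hl ?_
  have h1 := (inc_tau g⁻¹ x l).2 hxl
  rw [map_inv] at h1
  exact h1

theorem closure_smul_pre (g : G3 k) (A : Set (PP k)) :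
    closure ((fun x => g⁻¹ • x) ⁻¹' A) = (fun x => g⁻¹ • x) ⁻¹' closure A :=
  ((hP g⁻¹).preimage_closure A).symm

theorem isOpen_pre (g : G3 k) {A : Set (PP k)} (hA : IsOpen A) :
    IsOpen ((fun x => g⁻¹ • x) ⁻¹' A) := hA.preimage (hP g⁻¹).continuous

theorem isClosed_meet' [ProperSpace k] (h : CP k) :
    IsClosed {x : PP k | ∃ l ∈ tsupport h, (x, l) ∈ inc3 (k := k)} := by
  have h1 : {x : PP k | ∃ l ∈ tsupport h, (x, l) ∈ inc3 (k := k)} =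
      Prod.fst '' (inc3 (k := k) ∩ (Set.univ ×ˢ tsupport h)) := by
    ext x
    constructor
    · rintro ⟨l, hl, hx⟩
      exact ⟨(x, l), ⟨hx, trivial, hl⟩, rfl⟩
    · rintro ⟨⟨y, l⟩, ⟨hx, -, hl⟩, rfl⟩
      exact ⟨l, hl, hx⟩
  rw [h1]
  have h2 : IsClosed (inc3 (k := k) ∩ (Set.univ ×ˢ tsupport h)) :=
    inc3_closed.inter (isClosed_univ.prod (isClosed_tsupport h))
  exact (h2.isCompact.image continuous_fst).isClosed

theorem exists_open [ProperSpace k] {u f h : CP k} (h1 : NInc (tsupport u) (tsupport h))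
    (h2 : Disjoint (tsupport u) (tsupport f)) :
    ∃ A : Set (PP k), IsOpen A ∧ tsupport u ⊆ A ∧ Disjoint (closure A) (tsupport f) ∧
      NInc (closure A) (tsupport h) := by
  have hc : IsClosed (tsupport f ∪ {x : PP k | ∃ l ∈ tsupport h, (x, l) ∈ inc3 (k := k)}) :=
    (isClosed_tsupport f).union (isClosed_meet' h)
  obtain ⟨A, hA, huA, hAc⟩ := normal_exists_closure_subset (isClosed_tsupport u) hc.isOpen_compl
    (by
      intro x hx hx'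
      rcases hx' with hx' | ⟨l, hl, hx'⟩
      · exact Set.disjoint_left.1 h2 hx hx'
      · exact h1 x hx l hl hx')
  refine ⟨A, hA, huA, Set.disjoint_left.2 fun x hx hx' => hAc hx (Or.inl hx'), ?_⟩
  intro x hx l hl hxl
  exact hAc hx (Or.inr ⟨l, hl, hxl⟩)

theorem LipP.star {f : CP k} (hf : LipP f) : LipP (star f) := by
  obtain ⟨C, hC⟩ := hf
  refine ⟨C, fun v w hv hw h1 h2 => ?_⟩
  have := hC v w hv hw h1 h2
  simpa only [ContinuousMap.star_apply, ← star_sub, norm_star] using this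

/-- the line through two points -/
theorem exists_line (x y : PP k) (hxy : x ≠ y) :
    ∃ n : PP k, (x, n) ∈ inc3 (k := k) ∧ (y, n) ∈ inc3 (k := k) := by
  obtain ⟨v, rfl⟩ := pj_surj x
  obtain ⟨w, rfl⟩ := pj_surj y
  have hc : crossProduct v.1 w.1 ≠ 0 := fun h =>
    hxy ((Projectivization.mk_eq_mk_iff_crossProduct_eq_zero v.2 w.2).2 h)
  refine ⟨pj k (Fin 3) ⟨crossProduct v.1 w.1, hc⟩, ?_, ?_⟩
  · exact dot_self_cross v.1 w.1
  · exact dot_cross_self v.1 w.1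

end geo

/-! ### Lipschitz functions, `k = ℝ` -/

section lip

theorem norm_dir_sub {x y : Fin 3 → ℝ} (hx : x ≠ 0) (hy : y ≠ 0) :
    ‖(‖x‖⁻¹ • x) - (‖y‖⁻¹ • y)‖ ≤ 2 * ‖x‖⁻¹ * ‖x - y‖ := by
  have hx' : 0 < ‖x‖ := norm_pos_iff.2 hx
  have hy' : 0 < ‖y‖ := norm_pos_iff.2 hy
  have e : (‖x‖⁻¹ • x) - (‖y‖⁻¹ • y) = ‖x‖⁻¹ • (x - y) + (‖x‖⁻¹ - ‖y‖⁻¹) • y := by
    rw [smul_sub, sub_smul]; abel
  rw [e]
  refine (norm_add_le _ _).trans ?_
  rw [norm_smul, norm_smul, norm_inv, norm_norm]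
  have h1 : ‖‖x‖⁻¹ - ‖y‖⁻¹‖ * ‖y‖ ≤ ‖x‖⁻¹ * ‖x - y‖ := by
    have h2 : ‖x‖⁻¹ - ‖y‖⁻¹ = ‖x‖⁻¹ * ((‖y‖ - ‖x‖) * ‖y‖⁻¹) := by field_simp
    rw [h2, norm_mul, norm_mul, norm_inv, norm_inv, norm_norm, norm_norm]
    have h3 : ‖‖y‖ - ‖x‖‖ ≤ ‖x - y‖ := by
      rw [norm_sub_rev x y]; exact abs_norm_sub_norm_le y x
    calc ‖x‖⁻¹ * (‖‖y‖ - ‖x‖‖ * ‖y‖⁻¹) * ‖y‖ = ‖x‖⁻¹ * ‖‖y‖ - ‖x‖‖ := by field_simp
      _ ≤ _ := mul_le_mul_of_nonneg_left h3 (by positivity)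
  linarith

theorem exists_mulVec_bd (A : Matrix (Fin 3) (Fin 3) ℝ) :
    ∃ C : ℝ, 0 < C ∧ ∀ v : Fin 3 → ℝ, ‖A.mulVec v‖ ≤ C * ‖v‖ := by
  refine ⟨‖(Matrix.toLin' A).toContinuousLinearMap‖ + 1, by positivity, fun v => ?_⟩
  have h := (Matrix.toLin' A).toContinuousLinearMap.le_opNorm v
  have h2 : (Matrix.toLin' A).toContinuousLinearMap v = A.mulVec v := by
    simp
  rw [h2] at h
  refine h.trans ?_
  gcongr
  linarith

theorem pt_smul_eq {c : ℝ} (hc : c ≠ 0) {v : Fin 3 → ℝ} (hv : v ≠ 0) (hcv : c • v ≠ 0) :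
    pt ℝ (c • v) hcv = pt ℝ v hv := by
  unfold pt
  rw [Projectivization.mk_eq_mk_iff']
  exact ⟨c, rfl⟩

theorem lipP_act (g : G3 ℝ) {f : CP ℝ} (hf : LipP f) : LipP (act g f) := by
  obtain ⟨C, hC⟩ := hf
  obtain ⟨c, hc, hcg⟩ := exists_mulVec_bd g⁻¹.1
  obtain ⟨d, hd, hdg⟩ := exists_mulVec_bd g.1
  have hC0 : C ≤ |C| := le_abs_self C
  have inv1 : ∀ v : Fin 3 → ℝ, g.1.mulVec ((g⁻¹).1.mulVec v) = v := fun v => by
    rw [Matrix.mulVec_mulVec, ← Matrix.SpecialLinearGroup.coe_mul, mul_inv_cancel,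
      Matrix.SpecialLinearGroup.coe_one, Matrix.one_mulVec]
  refine ⟨|C| * (2 * d * c), fun v w hv hw h1 h2 => ?_⟩
  have hne : ∀ v : Fin 3 → ℝ, v ≠ 0 → (g⁻¹).1.mulVec v ≠ 0 := fun v hv h => by
    have := inv1 v
    rw [h, Matrix.mulVec_zero] at this
    exact hv this.symm
  set x := (g⁻¹).1.mulVec v with hx
  set y := (g⁻¹).1.mulVec w with hy
  have hx0 : x ≠ 0 := hne v hv
  have hy0 : y ≠ 0 := hne w hw
  have hxn : 0 < ‖x‖ := norm_pos_iff.2 hx0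
  have hyn : 0 < ‖y‖ := norm_pos_iff.2 hy0
  have hx1 : ‖x‖⁻¹ • x ≠ 0 := smul_ne_zero (inv_ne_zero hxn.ne') hx0
  have hy1 : ‖y‖⁻¹ • y ≠ 0 := smul_ne_zero (inv_ne_zero hyn.ne') hy0
  have ex : act g f (pt ℝ v hv) = f (pt ℝ (‖x‖⁻¹ • x) hx1) := by
    rw [pt_smul_eq (inv_ne_zero hxn.ne') hx0]
    rfl
  have ey : act g f (pt ℝ w hw) = f (pt ℝ (‖y‖⁻¹ • y) hy1) := by
    rw [pt_smul_eq (inv_ne_zero hyn.ne') hy0]
    rfl
  rw [ex, ey]
  have n1 : ‖‖x‖⁻¹ • x‖ = 1 := by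
    rw [norm_smul, norm_inv, norm_norm, inv_mul_cancel₀ hxn.ne']
  have n2 : ‖‖y‖⁻¹ • y‖ = 1 := by
    rw [norm_smul, norm_inv, norm_norm, inv_mul_cancel₀ hyn.ne']
  refine (hC _ _ hx1 hy1 n1 n2).trans ?_
  have h3 : ‖x - y‖ ≤ c * ‖v - w‖ := by
    rw [hx, hy, ← Matrix.mulVec_sub]
    exact hcg _
  have h4 : ‖x‖⁻¹ ≤ d := by
    have h5 := hdg x
    rw [hx, inv1 v, h1, ← hx] at h5
    rw [inv_le_comm₀ hxn hd]
    rw [inv_eq_one_div, div_le_iff₀ hd]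
    linarith
  calc C * ‖(‖x‖⁻¹ • x) - (‖y‖⁻¹ • y)‖ ≤ |C| * (2 * ‖x‖⁻¹ * ‖x - y‖) := by
        refine mul_le_mul hC0 (norm_dir_sub hx0 hy0) (norm_nonneg _) (abs_nonneg _)
    _ ≤ |C| * (2 * d * (c * ‖v - w‖)) := by
        refine mul_le_mul_of_nonneg_left ?_ (abs_nonneg _)
        exact mul_le_mul (by linarith) h3 (norm_nonneg _) (by positivity)
    _ = _ := by ring

end lip

end Vale.Agent.P092.H68
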