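import Vale.Agent.P092.SD.Blocks
import Vale.Agent.P092.H632.SD.Frame
import Vale.Agent.P092.H68.Geo

/-!
P092, Team D (helper68): [D-KEY] the conclusion of `KeyStmt k μ` from `NJStmt k` (the near-wall
count of a pair of calculi) and the counting principle in the form `EMZ`.
-/

set_option linter.all false

open scoped InnerProductSpace ENNReal LinearAlgebra.Projectivization
open Filter Topology ContinuousLinearMap MeasureTheory TopologicalSpace

namespace Vale.Agent.P092.H68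

open Vale.Agent.P092.SD
open Vale.Agent.P092.RC (Cm TRN Moore Pic)
open Vale.Agent.P092.H820 (inc3 inc3_closed)
open Vale.Agent.P092.H632.SD (exists_g3 exists_g2 cm_mul com_bw com_bw' com_un0 com_un2 com_un'
  star_calc cov_apply lam_unit)

/-- the trace of a set of basis vectors from its finite parts -/
theorem tsum_le_of {Γ K : Type} [NormedAddCommGroup K] (v : Γ → K) (D : Set Γ) {c : ℝ}
    (h : ∀ F : Finset Γ, (∀ γ ∈ F, γ ∈ D) → ∑ γ ∈ F, ‖v γ‖ ^ 2 ≤ c) :
    ∑' γ : D, ‖v (γ : Γ)‖ₑ ^ 2 ≤ ENNReal.ofReal c := by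
  classical
  rw [ENNReal.tsum_eq_iSup_sum]
  refine iSup_le fun F => ?_
  have h1 : ∑ γ ∈ F, ‖v (γ : Γ)‖ₑ ^ 2 = ENNReal.ofReal (∑ γ ∈ F, ‖v (γ : Γ)‖ ^ 2) := by
    rw [ENNReal.ofReal_sum_of_nonneg fun _ _ => by positivity]
    refine Finset.sum_congr rfl fun γ _ => ?_
    rw [ENNReal.ofReal_pow (norm_nonneg _), ofReal_norm]
  rw [h1]
  refine ENNReal.ofReal_le_ofReal ?_
  have h2 := h (F.map (Function.Embedding.subtype _)) (by
    intro γ hγ
    rw [Finset.mem_map] at hγ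
    obtain ⟨x, _, rfl⟩ := hγ
    exact x.2)
  rw [Finset.sum_map] at h2
  exact h2

section key

variable {k : Type} [NontriviallyNormedField k] [ProperSpace k] {Γ K : Type} [Group Γ]
  [NormedAddCommGroup K] [InnerProductSpace ℂ K] [CompleteSpace K]
  {π : G3 k →* (K →L[ℂ] K)} {lam : Γ →* (K →L[ℂ] K)} {W : Set (K →L[ℂ] K)} {Ω : K}
  {m : Set Γ → (K →L[ℂ] K)} {q : Γ →* G3 k} {w : kˣ} {E F : PP k → (CP k →⋆ₐ[ℂ] (K →L[ℂ] K))}

/-- The counting principle for polynomial counts, in the form used by (KEY). -/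
def EMZ (w : kˣ) (π : G3 k →* (K →L[ℂ] K)) (lam : Γ →* (K →L[ℂ] K)) (W : Set (K →L[ℂ] K)) (Ω : K)
    (q : Γ →* G3 k) (E : PP k → (CP k →⋆ₐ[ℂ] (K →L[ℂ] K))) : Prop :=
  ∀ (g : G3 k) (B : K →L[ℂ] K), Cm W B →
    (∀ n : ℕ, Commute B (π (g * bw w ^ n * g⁻¹))) →
    (∀ s : k, Commute B (π (g * un s * g⁻¹))) →
    ∀ (u : CP k) (A : Set (PP k)), IsOpen A → tsupport u ⊆ A → ∀ p : ℕ,
    (∀ R : ℝ, ∃ T > 0, ∃ C : ℝ, ∀ J : ℝ, 0 ≤ J → ∀ S : Finset Γ,
      (∀ γ ∈ S, NW R (q γ) ∧ Att T A (q γ) ∧ Real.log (nm (q γ)) ≤ J) →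
        ∑ γ ∈ S, ‖adjoint B (lam γ Ω)‖ ^ 2 ≤ C * (1 + J) ^ p) →
    E (g • ept k 0) u * B = 0

/-- **[D-KEY]**, with the counting principle as an input -/
theorem key_of (hN : NJStmt k) (hZ : EMZ w π lam W Ω q E) (hP : Pic π lam W Ω)
    (hfin : ∀ C : ℝ, {γ : Γ | nm (q γ) ≤ C}.Finite) (hE : EFam w π lam W m q E)
    (hF : EFam w (π.comp (tau k)) lam W m ((tau k).comp q) F)
    (hI : ∀ a l, (a, l) ∈ inc3 (k := k) → Supp (E a) (F l))
    (hC : ∀ a l, (a, l) ∈ inc3 (k := k) → ∀ f h, Commute (E a f) (F l h))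
    {a b l : PP k} (hal : (a, l) ∈ inc3 (k := k)) (hbl : (b, l) ∉ inc3 (k := k)) (u f h : CP k)
    (hf : LipP f) (hni : NInc (tsupport u) (tsupport h))
    (hd : Disjoint (tsupport u) (tsupport f)) : E a u * E b f * F l h = 0 := by
  obtain ⟨g, hga, hgb, hgl⟩ := exists_g3 hal hbl
  have hab : a ≠ b := fun e => hbl (e ▸ hal)
  obtain ⟨n, han, hbn⟩ := exists_line a b hab
  obtain ⟨A, hA, huA, hAf, hAh⟩ := exists_open hni hd
  have hB : Cm W (E b f * F l h) := cm_mul (hE.cm b f) (hF.cm l h)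
  rw [mul_assoc]
  have key := hZ g _ hB ?_ ?_ u A hA huA 6 ?_
  · rw [hga] at key
    exact key
  · intro N
    refine Commute.mul_left ?_ ?_
    · rw [← hgb]
      exact com_bw hE g w N 2 f
    · rw [← hgl]
      exact com_bw' hF g w N 2 h
  · intro s
    refine Commute.mul_left ?_ ?_
    · rw [← hgb]
      exact com_un2 hE g s f
    · rw [← hgl]
      exact com_un' hF g s h
  · intro R
    obtain ⟨T, hT, C, hC'⟩ := hN q hfin (E b) (E a) (F n) (F l) (hI b n hbn) (hI a n han)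
      (hI a l hal) (hC b n hbn) (hC a n han) (hC a l hal) R A (star f) (star h) (LipP.star hf)
      (by rw [tsupport_star]; exact hAh) (by rw [tsupport_star]; exact hAf)
    refine ⟨T, hT, C, fun J hJ S hS => ?_⟩
    have h2 := hC' J hJ S hS Ω
    rw [hP.nΩ, one_pow, mul_one] at h2
    refine le_trans (le_of_eq ?_) h2
    refine Finset.sum_congr rfl fun γ _ => ?_
    congr 1
    have h1 : adjoint (E b f * F l h) = F l (star h) * E b (star f) := by
      rw [← star_eq_adjoint, star_mul, star_eq_adjoint, star_eq_adjoint, star_calc, star_calc]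
    rw [h1]
    change ‖F l (star h) (E b (star f) (lam γ Ω))‖ = _
    rw [cov_apply hE, cov_apply hF, lam_unit hP, MonoidHom.comp_apply, map_inv q]

/-- **[D-KEY]** `KeyStmt k μ` from `NJStmt k` and the counting principle for legs -/
theorem keyStmt_of [MeasurableSpace k] {μ : Measure k} (hN : NJStmt k)
    (hZ : ∀ {Γ K : Type} [Group Γ] [NormedAddCommGroup K] [InnerProductSpace ℂ K]
      [CompleteSpace K] (w : kˣ) (π : G3 k →* (K →L[ℂ] K)) (lam : Γ →* (K →L[ℂ] K))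
      (W : Set (K →L[ℂ] K)) (Ω : K) (m : Set Γ → (K →L[ℂ] K)) (q : Γ →* G3 k)
      (E F : PP k → (CP k →⋆ₐ[ℂ] (K →L[ℂ] K))), LegS μ w π lam W Ω m q E F →
      EMZ w π lam W Ω q E) : KeyStmt k μ := by
  intro Γ K _ _ _ _ w π lam W Ω m q E F hL hI hC a b l hal hbl u f h hf hni hd
  exact key_of hN (hZ w π lam W Ω m q E F hL) hL.pic hL.disc hL.e hL.f hI hC hal hbl u f h hf
    hni hd

end key

end Vale.Agent.P092.H68
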