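import Vale.Agent.P092.H68.Key
import Vale.Agent.P092.H589.K3g
import Vale.Agent.P092.H790.CT2

/-!
P092, Team D (helper68): [D-KEY] `KeyStmt ℝ volume`.
-/

set_option linter.all false

open scoped InnerProductSpace ENNReal LinearAlgebra.Projectivization
open Filter Topology ContinuousLinearMap MeasureTheory TopologicalSpace

namespace Vale.Agent.P092.H68

open Vale.Agent.P092.SD

/-- The counting principle of helper790 for a leg (any local field). -/
theorem emz_leg {k : Type} [NontriviallyNormedField k] [ProperSpace k] [MeasurableSpace k]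
    [BorelSpace k] {μ : Measure k} [IsFiniteMeasureOnCompacts μ] [μ.IsOpenPosMeasure]
    {Γ K : Type} [Group Γ] [NormedAddCommGroup K] [InnerProductSpace ℂ K] [CompleteSpace K]
    {w : kˣ} {π : G3 k →* (K →L[ℂ] K)} {lam : Γ →* (K →L[ℂ] K)} {W : Set (K →L[ℂ] K)} {Ω : K}
    {m : Set Γ → (K →L[ℂ] K)} {q : Γ →* G3 k} {E F : PP k → (CP k →⋆ₐ[ℂ] (K →L[ℂ] K))}
    (h : LegS μ w π lam W Ω m q E F) : EMZ w π lam W Ω q E := by
  intro g B hB hb hn u A hA hu p hc
  refine H790.CT.E_mul_zero_of_poly (μ := μ) h.hw h.pic h.ms h.uc h.orb h.size h.e hB ?_ hn hA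
    hu p hc
  have h1 := hb 1
  rwa [pow_one] at h1

/-- **[D-KEY]**, any local field for which the near-wall count is known. -/
theorem keyStmt_of' {k : Type} [NontriviallyNormedField k] [ProperSpace k] [MeasurableSpace k]
    [BorelSpace k] (μ : Measure k) [IsFiniteMeasureOnCompacts μ] [μ.IsOpenPosMeasure]
    (hN : NJStmt k) : KeyStmt k μ :=
  keyStmt_of hN fun w π lam W Ω m q E F h => emz_leg h

/-- **[D-KEY]** -/
theorem keyStmt : KeyStmt ℝ volume := keyStmt_of' volume H589.KT.njStmt

end Vale.Agent.P092.H68
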