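import Vale.Agent.P092.H68.Nj3
import Vale.Agent.P092.H124.KL4

/-!
P092, TEAM N (helper68): `SN.KeyStmt k μ` from `NJB3Stmt k` (the estimate with the calculus of the
plane `b + l`), through helper124's `key_one`.
-/

set_option linter.all false

open scoped InnerProductSpace ENNReal LinearAlgebra.Projectivization Matrix
open Filter Topology ContinuousLinearMap MeasureTheory TopologicalSpace

namespace Vale.Agent.P092.H68.Nj3

open Vale.Agent.P092.SN
open Vale.Agent.P092.H124.KL
open Vale.Agent.P092.H100.Gr (Gr)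
open Vale.Agent.P092.H644.Gr3 (p1 hyp)

variable {k : Type} [NontriviallyNormedField k] [ProperSpace k] {N : ℕ}

/-- the span of `star '' D` is dense -/
theorem dense_star {D : Set (CG k N 2)}
    (hD : closure (Submodule.span ℂ D : Set (CG k N 2)) = Set.univ) :
    Dense (Submodule.span ℂ ((fun g => star g) '' D) : Set (CG k N 2)) := by
  have hsp : (Submodule.span ℂ ((fun g => star g) '' D) : Set (CG k N 2)) =
      (fun g => star g) '' (Submodule.span ℂ D : Set (CG k N 2)) := by
    apply Set.Subset.antisymm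
    · intro x hx
      refine Submodule.span_induction (p := fun x _ => x ∈ (fun g => star g) ''
        (Submodule.span ℂ D : Set (CG k N 2))) ?_ ?_ ?_ ?_ hx
      · rintro _ ⟨y, hy, rfl⟩
        exact ⟨y, Submodule.subset_span hy, rfl⟩
      · exact ⟨0, Submodule.zero_mem _, star_zero _⟩
      · rintro _ _ _ _ ⟨y, hy, rfl⟩ ⟨y', hy', rfl⟩
        exact ⟨y + y', Submodule.add_mem _ hy hy', star_add _ _⟩
      · rintro c _ _ ⟨y, hy, rfl⟩
        refine ⟨star c • y, Submodule.smul_mem _ _ hy, ?_⟩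
        change star (star c • y) = c • star y
        rw [star_smul, star_star]
    · rintro _ ⟨y, hy, rfl⟩
      refine Submodule.span_induction (p := fun y _ => star y ∈
        (Submodule.span ℂ ((fun g => star g) '' D) : Set (CG k N 2))) ?_ ?_ ?_ ?_ hy
      · intro y hy
        exact Submodule.subset_span ⟨y, hy, rfl⟩
      · rw [star_zero]; exact Submodule.zero_mem _
      · intro y y' _ _ h1 h2
        rw [star_add]; exact Submodule.add_mem _ h1 h2
      · intro c y _ h1
        rw [star_smul]; exact Submodule.smul_mem _ _ h1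
  rw [hsp]
  have hsurj : Function.Surjective fun g : CG k N 2 => star g := fun g => ⟨star g, star_star g⟩
  exact hsurj.denseRange.dense_image continuous_star (dense_iff_closure_eq.2 hD)

variable [MeasurableSpace k] [BorelSpace k] {μ : Measure k} [IsFiniteMeasureOnCompacts μ]
  [μ.IsOpenPosMeasure]

/-- **[N-KL]** from the estimate with the plane -/
theorem keyStmt3 (hNJ : NJB3Stmt k) : KeyStmt k μ := by
  intro N E Γ K _ _ _ _ _ _ w ι a a' π lam W Ω m q Z Ec F G h hG C l b hbC hlC hbl u g f hni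
  have hN2 : 2 ≤ N := h.adm.hN
  have hN1 : 1 ≤ N := by omega
  obtain ⟨D, hD, hK⟩ := hNJ hN2
  let z : Gr k (Fin (N + 1)) 1 := ⟨C.1 ⊓ l.1, finrank_inf C.2 l.2 hlC⟩
  have hzl : z.1 ≤ l.1 := inf_le_right
  have hbz : ¬ b.1 ≤ z.1 := fun e => hbl (e.trans hzl)
  let ν : Gr k (Fin (N + 1)) 2 := ⟨b.1 ⊔ z.1, H218.NC.rank_join b z hbz⟩
  have hzν : z.1 ≤ ν.1 := le_sup_right
  have hbν : b.1 ≤ ν.1 := le_sup_left
  obtain ⟨p, hp⟩ := exists_pln hN2 hG.cal b z l ν hzl hzν hbν hbl
  have hPL : ∀ (x : Gr k (Fin (N + 1)) 1) (y : Gr k (Fin (N + 1)) 2), x.1 ≤ y.1 →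
      PL (G 1 x) (G 2 y) := fun x y hxy =>
    ⟨fun f g => hG.cal.com 1 2 le_rfl (by omega) hN2 x y hxy f g,
      fun u h => hG.cal.inc 1 2 le_rfl (by omega) hN2 x y hxy u h⟩
  have hni' : H232.Nin H218.NC.In (star f) u := by
    intro x hx
    rw [tsupport_star] at hx
    exact hni x hx
  have main : ∀ g' ∈ D, G N C u * G 2 l (star g') * G 1 b f = 0 := by
    intro g' hg'
    have := key_one h hG (C := C) (l := l) (b := b) hbC hlC (u := u) (g := g') (f := star f)
      hni' fun R A hA =>
        hK q Z h.ud (G 1 b) (G 1 z) (G 2 l) (G 2 ν) p (hPL z l hzl)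
          (hPL z ν hzν) (hPL b ν hbν) hp R A (star f) g' hg' hA
    rw [star_star] at this
    rw [mul_assoc]
    exact this
  refine H218.NC.mid_dense (G 2 l) (G N C u) (G 1 b f) (dense_star hD) ?_ g
  rintro _ ⟨g', hg', rfl⟩
  exact main g' hg'

end Vale.Agent.P092.H68.Nj3
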