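import Mathlib

/-!
P092, TEAM N (helper68) for [N-K2] (helper589): labels of the cells of an ultrametric local field.
-/

set_option linter.all false

open Metric Set

namespace Vale.Agent.P092.H68.CellsU

variable {𝕜 : Type*} [NontriviallyNormedField 𝕜]

/-- the label of level `m` -/
def lab (m : ℕ) (x : 𝕜) : Set 𝕜 := closedBall x ((1 / 2 : ℝ) ^ m)

theorem mem_lab (m : ℕ) (x : 𝕜) : x ∈ lab m x := mem_closedBall_self (by positivity)

theorem small {m : ℕ} {x y : 𝕜} (h : lab m x = lab m y) : ‖x - y‖ ≤ (1 / 2 : ℝ) ^ m := by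
  have h1 : x ∈ lab m y := h ▸ mem_lab m x
  rwa [lab, mem_closedBall, dist_eq_norm] at h1

theorem lab_eq [IsUltrametricDist 𝕜] {m : ℕ} {x y : 𝕜} (h : ‖x - y‖ ≤ (1 / 2 : ℝ) ^ m) :
    lab m x = lab m y := by
  have h1 : x ∈ closedBall y ((1 / 2 : ℝ) ^ m) := by rwa [mem_closedBall, dist_eq_norm]
  exact (IsUltrametricDist.closedBall_eq_of_mem h1).symm

theorem lab_eq_iff [IsUltrametricDist 𝕜] {m : ℕ} {x y : 𝕜} :
    lab m x = lab m y ↔ ‖x - y‖ ≤ (1 / 2 : ℝ) ^ m := ⟨small, lab_eq⟩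

theorem nest [IsUltrametricDist 𝕜] {m : ℕ} {x y : 𝕜} (h : lab (m + 1) x = lab (m + 1) y) :
    lab m x = lab m y := by
  refine lab_eq ((small h).trans ?_)
  exact pow_le_pow_of_le_one (by norm_num) (by norm_num) (Nat.le_succ m)

theorem count [IsUltrametricDist 𝕜] [ProperSpace 𝕜] (R : ℝ) : ∃ M : ℕ, ∀ (m : ℕ) (x : 𝕜),
    ∃ F : Finset (Set 𝕜), F.card ≤ M ∧ ∀ y, ‖y - x‖ ≤ R * (1 / 2 : ℝ) ^ m → lab m y ∈ F := by
  classical
  obtain ⟨a, ha⟩ := NormedField.exists_one_lt_norm 𝕜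
  have ha0 : 0 < ‖a‖ := zero_lt_one.trans ha
  obtain ⟨t, -, htf, ht⟩ := (isCompact_closedBall (0 : 𝕜) R).finite_cover_balls
    (e := 1 / ‖a‖) (by positivity)
  lift t to Finset 𝕜 using htf
  refine ⟨t.card, fun m x => ?_⟩
  set r : ℝ := (1 / 2 : ℝ) ^ m with hr
  have hr0 : 0 < r := by positivity
  obtain ⟨d, hd0, hd1, hd2, -⟩ := rescale_to_shell ha (ε := r * ‖a‖) (by positivity)
    (x := (1 : 𝕜)) one_ne_zero
  rw [smul_eq_mul, mul_one] at hd1 hd2
  have hd3 : r ≤ ‖d‖ := by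
    rwa [mul_div_assoc, div_self ha0.ne', mul_one] at hd2
  have hdn : 0 < ‖d‖ := norm_pos_iff.2 hd0
  refine ⟨t.image fun z => lab m (x + d * z), Finset.card_image_le, fun y hy => ?_⟩
  have hR : 0 ≤ R := by
    by_contra hR
    have : R * r < 0 := mul_neg_of_neg_of_pos (not_le.1 hR) hr0
    linarith [norm_nonneg (y - x)]
  have hz : (y - x) / d ∈ closedBall (0 : 𝕜) R := by
    rw [mem_closedBall_zero_iff, norm_div, div_le_iff₀ hdn]
    exact hy.trans (mul_le_mul_of_nonneg_left hd3 hR)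
  obtain ⟨z, hzt, hz⟩ := mem_iUnion₂.1 (ht hz)
  rw [mem_ball, dist_eq_norm] at hz
  refine Finset.mem_image.2 ⟨z, hzt, (lab_eq ?_).symm⟩
  have e : y - (x + d * z) = d * ((y - x) / d - z) := by
    field_simp
    ring
  rw [e, norm_mul]
  calc ‖d‖ * ‖(y - x) / d - z‖ ≤ (r * ‖a‖) * (1 / ‖a‖) :=
        mul_le_mul hd1.le hz.le (norm_nonneg _) (by positivity)
    _ = r := by field_simp

theorem meas [IsUltrametricDist 𝕜] [MeasurableSpace 𝕜] [OpensMeasurableSpace 𝕜] (m : ℕ)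
    (t : Set 𝕜) : MeasurableSet (lab m ⁻¹' {t} : Set 𝕜) := by
  by_cases h : ∃ x, lab m x = t
  · obtain ⟨x, rfl⟩ := h
    have e : (lab m ⁻¹' {lab m x} : Set 𝕜) = closedBall x ((1 / 2 : ℝ) ^ m) := by
      ext y
      rw [mem_preimage, mem_singleton_iff, lab_eq_iff, mem_closedBall, dist_eq_norm]
    rw [e]
    exact measurableSet_closedBall
  · have e : (lab m ⁻¹' {t} : Set 𝕜) = ∅ := by
      ext y
      constructor
      · intro hy
        exact (h ⟨y, hy⟩).elim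
      · exact fun hy => hy.elim
    rw [e]
    exact MeasurableSet.empty

end Vale.Agent.P092.H68.CellsU
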