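import Vale.Agent.P092.H375.UKakP
import Vale.Agent.P092.H99.Rel

/-!
P092, TEAM N (helper68), second route over ultrametric fields, part 1: the planar Kakeya estimate
of helper375 for the preimages of thick cones under linear maps `T : k³ → F` with one large
direction, for projection valued measures on measurable spaces with sections, and relative to a
projection which commutes with everything.
-/

set_option linter.all false

namespace Vale.Agent.P092.H68.KakU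

open Vale.Agent.P092.H820 TopologicalSpace Vale.Agent.P092.H175.Opp
open Vale.Agent.P092.H375.Ultra Vale.Agent.P092.H99
open Vale.Agent.P092.H464 (Pv CI)
open scoped LinearAlgebra.Projectivization Matrix

universe u v

variable {k : Type*} [NontriviallyNormedField k] [IsUltrametricDist k] [ProperSpace k]
  [MeasurableSpace k] [BorelSpace k]
variable {K : Type u} [NormedAddCommGroup K] [InnerProductSpace ℂ K] [CompleteSpace K]
variable {X Y : Type*} [MeasurableSpace X] [MeasurableSpace Y]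

section push

/-- the projective point of a section -/
def pt (s : X → Fin 3 → k) (hs0 : ∀ x, s x ≠ 0) (x : X) : ℙ k (Fin 3 → k) :=
  pj k (Fin 3) ⟨s x, hs0 x⟩

/-- incidence of sections -/
def IncU (s : X → Fin 3 → k) (t : Y → Fin 3 → k) (x : X) (y : Y) : Prop := dt (t y) (s x) = 0

variable {s : X → Fin 3 → k} {hs0 : ∀ x, s x ≠ 0} {t : Y → Fin 3 → k} {ht0 : ∀ y, t y ≠ 0}

theorem meas_pt (hs : Measurable s) (U : Clopens (ℙ k (Fin 3 → k))) :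
    MeasurableSet (pt s hs0 ⁻¹' (U : Set (ℙ k (Fin 3 → k)))) := by
  haveI : SecondCountableTopology k := inferInstance
  have h1 : Measurable fun x => (⟨s x, hs0 x⟩ : {v : Fin 3 → k // v ≠ 0}) := hs.subtype_mk
  have h2 : IsOpen (pj k (Fin 3) ⁻¹' (U : Set (ℙ k (Fin 3 → k)))) :=
    U.isClopen.isOpen.preimage pj_continuous
  exact h1 h2.measurableSet

/-- the image content -/
def pc (s : X → Fin 3 → k) (hs0 : ∀ x, s x ≠ 0) (P : Set X → (K →L[ℂ] K))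
    (U : Clopens (ℙ k (Fin 3 → k))) : K →L[ℂ] K := P (pt s hs0 ⁻¹' (U : Set (ℙ k (Fin 3 → k))))

theorem pc_cpv (hs : Measurable s) {P : Set X → (K →L[ℂ] K)} (hP : Pv P) : Cpv (pc s hs0 P) where
  sa U := hP.sa _ (meas_pt hs U)
  inf U V := by
    unfold pc
    rw [← hP.inter _ _ (meas_pt hs U) (meas_pt hs V)]
    rfl
  compl U := by
    unfold pc
    rw [← hP.compl _ (meas_pt hs U)]
    rfl

theorem quad (hs : Measurable s) (ht : Measurable t) {Pb Pc : Set X → (K →L[ℂ] K)}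
    {Ll Lm : Set Y → (K →L[ℂ] K)} (hb : Pv Pb) (hc : Pv Pc) (hl : Pv Ll) (hm : Pv Lm)
    (hbl : CI (IncU s t) Pb Ll) (hcl : CI (IncU s t) Pc Ll) (hcm : CI (IncU s t) Pc Lm) :
    Quad inc3 (pc s hs0 Pb) (pc s hs0 Pc) (pc t ht0 Lm) (pc t ht0 Ll) := by
  have key : ∀ {P : Set X → (K →L[ℂ] K)} {L : Set Y → (K →L[ℂ] K)}, CI (IncU s t) P L →
      ∀ U A, NonInc inc3 U A → pc s hs0 P U * pc t ht0 L A = 0 := by
    intro P L h U A hUA
    refine h.inc _ _ (meas_pt hs U) (meas_pt ht A) fun x hx ν hν hI => hUA _ hx _ hν ?_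
    refine (orthogonal_iff _ _).2 ?_
    change s x ⬝ᵥ t ν = 0
    rw [dotProduct_comm, ← dt_eq]
    exact hI
  exact ⟨inc3_closed, pc_cpv hs hb, pc_cpv hs hc, pc_cpv ht hm, pc_cpv ht hl, key hbl, key hcl,
    key hcm, fun U A => hbl.comm _ _ (meas_pt hs U) (meas_pt ht A),
    fun U A => hcm.comm _ _ (meas_pt hs U) (meas_pt ht A)⟩

/-- a unit representative of the projective point -/
theorem nv_pt (x : X) : ∃ c : k, c ≠ 0 ∧ nv (pt s hs0 x) = c • s x ∧ ‖c‖ * ‖s x‖ = 1 := by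
  obtain ⟨c, hc, h⟩ := nv_pj (⟨s x, hs0 x⟩ : {v : Fin 3 → k // v ≠ 0})
  refine ⟨c, hc, h.symm, ?_⟩
  rw [← norm_smul]
  change ‖c • (⟨s x, hs0 x⟩ : {v : Fin 3 → k // v ≠ 0}).1‖ = 1
  rw [h, norm_nv]

theorem mem_bal {η : Fin 3 → k} {ρ : ℝ} (hη : ‖η‖ ≤ 1) (hρ : 0 < ρ) (x : X) :
    pt s hs0 x ∈ Bal η ρ hη hρ ↔ ‖wd (s x) η‖ ≤ ρ * ‖s x‖ := by
  obtain ⟨c, hc, h1, h2⟩ := nv_pt (hs0 := hs0) x
  have hc' : 0 < ‖c‖ := norm_pos_iff.2 hc
  have hs : 0 < ‖s x‖ := norm_pos_iff.2 (hs0 x)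
  rw [mem_Bal, h1, wd_smul_left, norm_smul]
  constructor
  · intro h
    have h3 : ‖c‖ * ‖wd (s x) η‖ ≤ ‖c‖ * (ρ * ‖s x‖) := by
      calc ‖c‖ * ‖wd (s x) η‖ ≤ ρ := h
        _ = ρ * (‖c‖ * ‖s x‖) := by rw [h2, mul_one]
        _ = ‖c‖ * (ρ * ‖s x‖) := by ring
    exact le_of_mul_le_mul_left h3 hc'
  · intro h
    calc ‖c‖ * ‖wd (s x) η‖ ≤ ‖c‖ * (ρ * ‖s x‖) := mul_le_mul_of_nonneg_left h hc'.le
      _ = ρ * (‖c‖ * ‖s x‖) := by ring
      _ = ρ := by rw [h2, mul_one]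

end push

section cone

variable {F : Type*} [NormedAddCommGroup F] [NormedSpace k F]

/-- a linear map with one large direction -/
structure Dat (C r : ℝ) (T : (Fin 3 → k) →ₗ[k] F) (η : Fin 3 → k) (β : F) : Prop where
  rem : ∀ v, ‖T v - (dt η v) • β‖ ≤ C * r * ‖v‖
  bet : ‖β‖ ≤ C
  low : ∀ v, ‖dt η v‖ ≤ C * ‖T v‖
  low' : ∀ v, r * ‖v‖ ≤ C * ‖T v‖

/-- a thick cone -/
structure Cone (k : Type*) [NontriviallyNormedField k] {F : Type*} [NormedAddCommGroup F]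
    [NormedSpace k F] (δ : ℝ) (V : Set F) : Prop where
  near : ∀ a b : F, ‖a - b‖ ≤ δ * ‖a‖ → (a ∈ V ↔ b ∈ V)
  hom : ∀ (c : k) (a : F), c ≠ 0 → (c • a ∈ V ↔ a ∈ V)

variable {C r δ : ℝ} {T : (Fin 3 → k) →ₗ[k] F} {η : Fin 3 → k} {β : F} {V : Set F}

theorem Dat.upper (h : Dat C r T η β) (hη : ‖η‖ = 1) (hC : 1 ≤ C) (hr : 0 < r) (hr1 : r ≤ 1)
    (v : Fin 3 → k) : ‖T v‖ ≤ 2 * C * ‖v‖ := by
  have h1 := h.rem v
  have h2 : ‖(dt η v) • β‖ ≤ ‖v‖ * C := by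
    rw [norm_smul]
    refine mul_le_mul ((norm_dt_le _ _).trans ?_) h.bet (norm_nonneg _) (norm_nonneg _)
    rw [hη, one_mul]
  calc ‖T v‖ = ‖(T v - (dt η v) • β) + (dt η v) • β‖ := by rw [sub_add_cancel]
    _ ≤ C * r * ‖v‖ + ‖v‖ * C := (norm_add_le _ _).trans (add_le_add h1 h2)
    _ ≤ C * 1 * ‖v‖ + ‖v‖ * C := by gcongr
    _ = 2 * C * ‖v‖ := by ring

/-- off the strip the cone condition does not depend on the vector -/
theorem Dat.off (h : Dat C r T η β) (hV : Cone k δ V) (hC : 1 ≤ C) (hδ : 0 < δ)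
    {v : Fin 3 → k} (hv : ‖v‖ = 1) (hs : C ^ 2 / δ * r < ‖dt η v‖) : T v ∈ V ↔ β ∈ V := by
  have hC0 : 0 < C := by linarith
  have h0 : 0 ≤ ‖dt η v‖ := norm_nonneg _
  have hne : dt η v ≠ 0 := by
    intro h1
    have h2 := h.low' v
    have h3 := h.rem v
    rw [h1, norm_zero] at hs
    rw [hv, mul_one] at h2
    have h4 : C ^ 2 / δ * r < 0 := hs
    have h5 : r < 0 := by
      by_contra h6
      have := mul_nonneg (div_nonneg (sq_nonneg C) hδ.le) (not_lt.1 h6)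
      linarith
    have h6 : ‖T v - dt η v • β‖ ≤ C * r * ‖v‖ := h3
    rw [hv, mul_one] at h6
    have h7 : C * r < 0 := mul_neg_of_pos_of_neg hC0 h5
    linarith [norm_nonneg (T v - dt η v • β)]
  rw [← hV.hom (dt η v) β hne]
  refine hV.near _ _ ((h.rem v).trans ?_)
  rw [hv, mul_one]
  have h1 := h.low v
  have h2 : C ^ 2 / δ * r < C * ‖T v‖ := hs.trans_le h1
  have h3 : C ^ 2 * r < C * ‖T v‖ * δ := by
    have := mul_lt_mul_of_pos_right h2 hδ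
    rwa [show C ^ 2 / δ * r * δ = C ^ 2 * r by field_simp] at this
  have h4 : C * (C * r) < C * (δ * ‖T v‖) := by nlinarith
  exact (lt_of_mul_lt_mul_left h4 hC0.le).le

/-- local constancy of the cone condition in the strip -/
theorem Dat.loc (h : Dat C r T η β) (hV : Cone k δ V) (hC : 1 ≤ C) (hδ : 0 < δ) (hr : 0 < r)
    {v w : Fin 3 → k} (hv : ‖v‖ = 1) (h1 : ‖v - w‖ ≤ δ / (2 * C ^ 2))
    (h2 : ‖dt η (v - w)‖ ≤ δ / (2 * C ^ 2) * r) : T v ∈ V ↔ T w ∈ V := by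
  have hC0 : 0 < C := by linarith
  refine hV.near _ _ ?_
  rw [← map_sub]
  have e : T (v - w) = (T (v - w) - (dt η (v - w)) • β) + (dt η (v - w)) • β := by
    rw [sub_add_cancel]
  have h3 : ‖(dt η (v - w)) • β‖ ≤ δ / (2 * C ^ 2) * r * C := by
    rw [norm_smul]
    exact mul_le_mul h2 h.bet (norm_nonneg _) (by positivity)
  have h4 := h.low' v
  rw [hv, mul_one] at h4
  calc ‖T (v - w)‖ ≤ C * r * ‖v - w‖ + δ / (2 * C ^ 2) * r * C := by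
        rw [e]
        exact (norm_add_le _ _).trans (add_le_add (h.rem _) h3)
    _ ≤ C * r * (δ / (2 * C ^ 2)) + δ / (2 * C ^ 2) * r * C := by gcongr
    _ = δ * (r / C) := by field_simp; ring
    _ ≤ δ * ‖T v‖ := by
        refine mul_le_mul_of_nonneg_left ?_ hδ.le
        rw [div_le_iff₀ hC0]
        linarith

theorem norm_add_one {v w : Fin 3 → k} (hv : ‖v‖ = 1) (hw : ‖w‖ < 1) : ‖v + w‖ = 1 := by
  rw [IsUltrametricDist.norm_add_eq_max_of_norm_ne_norm (by rw [hv]; exact hw.ne'), hv]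
  exact max_eq_left hw.le

/-- the clopen set of the cone -/
theorem clopen_cone (h : Dat C r T η β) (hV : Cone k δ V) (hη : ‖η‖ = 1) (hC : 1 ≤ C)
    (hδ : 0 < δ) (hδ1 : δ ≤ 1) (hr : 0 < r) (hr1 : r ≤ 1) :
    IsClopen {v : Fin 3 → k | ‖v‖ = 1 ∧ T v ∈ V} := by
  have hC0 : 0 < C := by linarith
  have hε : δ / (2 * C ^ 2) * r ≤ 1 / 2 := by
    have h1 : δ / (2 * C ^ 2) ≤ 1 / 2 := by
      rw [div_le_div_iff₀ (by positivity) (by norm_num)]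
      nlinarith [one_le_pow₀ hC (n := 2)]
    calc δ / (2 * C ^ 2) * r ≤ 1 / 2 * 1 := mul_le_mul h1 hr1 hr.le (by norm_num)
      _ = 1 / 2 := mul_one _
  refine isClopen_of_inv (ρ := δ / (2 * C ^ 2) * r) (by positivity) fun v hv w hw => ?_
  have h2 : ‖v + w‖ = 1 := norm_add_one hv.1 (by linarith)
  refine ⟨h2, (h.loc hV hC hδ hr hv.1 ?_ ?_).1 hv.2⟩
  · rw [show v - (v + w) = -w by abel, norm_neg]
    refine hw.trans ?_
    calc δ / (2 * C ^ 2) * r ≤ δ / (2 * C ^ 2) * 1 := by gcongr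
      _ = _ := mul_one _
  · rw [show v - (v + w) = -w by abel]
    refine (norm_dt_le _ _).trans ?_
    rw [hη, one_mul, norm_neg]
    exact hw

theorem clopen_strip {ρ : ℝ} (hρ : 0 < ρ) (hη : ‖η‖ = 1) :
    IsClopen {v : Fin 3 → k | ‖v‖ = 1 ∧ ‖dt η v‖ ≤ ρ} := by
  refine isClopen_of_inv (ρ := min (1 / 2) ρ) (by positivity) fun v hv w hw => ?_
  refine ⟨norm_add_one hv.1 ((hw.trans (min_le_left _ _)).trans_lt (by norm_num)), ?_⟩
  rw [dt_add]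
  refine (nadd_le _ _).trans (max_le hv.2 ((norm_dt_le _ _).trans ?_))
  rw [hη, one_mul]
  exact hw.trans (min_le_right _ _)

theorem uinv_cone (hV : Cone k δ V) : UInv {v : Fin 3 → k | ‖v‖ = 1 ∧ T v ∈ V} := by
  intro c hc v hv
  refine ⟨by rw [norm_smul, hc, hv.1, one_mul], ?_⟩
  rw [map_smul]
  exact (hV.hom c _ (unit_ne hc)).2 hv.2

theorem uinv_strip {ρ : ℝ} : UInv {v : Fin 3 → k | ‖v‖ = 1 ∧ ‖dt η v‖ ≤ ρ} := by
  intro c hc v hv
  refine ⟨by rw [norm_smul, hc, hv.1, one_mul], ?_⟩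
  rw [dt_smul, norm_mul, hc, one_mul]
  exact hv.2

end cone

section main

theorem mem_cs_pj {A : Set (Fin 3 → k)} {hA : IsClopen A} {hu : UInv A}
    {v : {v : Fin 3 → k // v ≠ 0}} (hv : ‖v.1‖ = 1) : pj k (Fin 3) v ∈ cs A hA hu ↔ v.1 ∈ A := by
  obtain ⟨c, hc0, hc⟩ := nv_pj v
  have hc1 : ‖c‖ = 1 := by
    have h1 := norm_nv (pj k (Fin 3) v)
    rw [← hc, norm_smul, hv, mul_one] at h1
    exact h1
  rw [mem_cs, ← hc]
  constructor
  · intro h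
    have := hu c⁻¹ (unit_inv hc1) _ h
    rwa [inv_smul_smul₀ hc0] at this
  · exact fun h => hu c hc1 _ h

theorem sq_three {a b c d : ℝ} (ha : 0 ≤ a) (hb : 0 ≤ b) (hc : 0 ≤ c) (hd : 0 ≤ d)
    (h : d ≤ a + b + c) : d ^ 2 ≤ 3 * (a ^ 2 + b ^ 2 + c ^ 2) := by
  have h1 : d ^ 2 ≤ (a + b + c) ^ 2 := pow_le_pow_left₀ hd h 2
  nlinarith [sq_nonneg (a - b), sq_nonneg (b - c), sq_nonneg (a - c)]

/-- **the planar estimate for cones** -/
theorem kak_cone {C δ : ℝ} (hC : 1 ≤ C) (hδ : 0 < δ) (hδ1 : δ ≤ 1) (N : ℕ) :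
    ∃ D : ℝ, 0 ≤ D ∧ ∀ (K : Type u) [NormedAddCommGroup K] [InnerProductSpace ℂ K]
      [CompleteSpace K] (X Y : Type v) [MeasurableSpace X] [MeasurableSpace Y] (F : Type v)
      [NormedAddCommGroup F] [NormedSpace k F] (s : X → Fin 3 → k) (t : Y → Fin 3 → k)
      (hs : Measurable s) (ht : Measurable t) (hs0 : ∀ x, s x ≠ 0) (ht0 : ∀ y, t y ≠ 0)
      (Pb Pc : Set X → (K →L[ℂ] K)) (Ll Lm : Set Y → (K →L[ℂ] K)) (hb : Pv Pb) (hc : Pv Pc)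
      (hl : Pv Ll) (hm : Pv Lm) (hbl : CI (IncU s t) Pb Ll) (hcl : CI (IncU s t) Pc Ll)
      (hcm : CI (IncU s t) Pc Lm) (κ : Type v) (S : Finset κ) (T : κ → ((Fin 3 → k) →ₗ[k] F))
      (η : κ → Fin 3 → k) (β : κ → F) (V : κ → Set F) (r : ℝ) (hr : 0 < r) (hr1 : r ≤ 1)
      (hη : ∀ i, ‖η i‖ = 1)
      (hcap : ∀ i ∈ S, ∀ t ⊆ S, (∀ j ∈ t, ‖wd (η j) (η i)‖ ≤ C ^ 2 / δ * r) → t.card ≤ N)
      (hD : ∀ i ∈ S, Dat C r (T i) (η i) (β i)) (hV : ∀ i ∈ S, Cone k δ (V i)) (B : κ → Set Y)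
      (hB : ∀ i ∈ S, MeasurableSet (B i))
      (hBs : ∀ i ∈ S, ∀ y ∈ B i, ‖wd (t y) (η i)‖ ≤ C ^ 2 / δ * r * ‖t y‖) (ξ : K),
      ∑ i ∈ S, ‖Lm (B i) (Pb {x | T i (s x) ∈ V i} ξ)‖ ^ 2 ≤
        D * (1 + Real.log (1 / r)) ^ 2 * ‖ξ‖ ^ 2 := by
  classical
  have hC0 : 0 < C := by linarith
  set Cc : ℝ := C ^ 2 / δ with hCc
  set ε : ℝ := δ / (2 * C ^ 2) with hε
  have hCc1 : 1 ≤ Cc := by
    rw [hCc, le_div_iff₀ hδ, one_mul]
    exact hδ1.trans (one_le_pow₀ hC)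
  have hε0 : 0 < ε := by positivity
  have hε1 : ε ≤ 1 := by
    rw [hε, div_le_one (by positivity)]
    nlinarith [one_le_pow₀ hC (n := 2)]
  obtain ⟨K0, hK0, key⟩ := kak.{u, v} (k := k) hCc1 hε0 hε1 N
  refine ⟨3 * (K0 + N + K0), by positivity, ?_⟩
  intro K _ _ _ X Y _ _ F _ _ s t hs ht hs0 ht0 Pb Pc Ll Lm hb hc hl hm hbl hcl hcm κ S T η β V r
    hr hr1 hη hcap hD hV B hB hBs ξ
  have hCr : 0 < Cc * r := by positivity
  have q := quad (hs0 := hs0) (ht0 := ht0) hs ht hb hc hl hm hbl hcl hcm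
  -- the clopen sets
  set U : κ → Clopens (ℙ k (Fin 3 → k)) := fun i =>
    cs {v : Fin 3 → k | ‖v‖ = 1 ∧ ‖dt (η i) v‖ ≤ Cc * r} (clopen_strip hCr (hη i)) uinv_strip
    with hU
  set W : κ → Clopens (ℙ k (Fin 3 → k)) := fun i => if h : i ∈ S then
    cs {v : Fin 3 → k | ‖v‖ = 1 ∧ T i v ∈ V i}
      (clopen_cone (hD i h) (hV i h) (hη i) hC hδ hδ1 hr hr1) (uinv_cone (hV i h)) else ⊥ with hW
  have hWm : ∀ i ∈ S, ∀ v : {v : Fin 3 → k // v ≠ 0}, ‖v.1‖ = 1 →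
      (pj k (Fin 3) v ∈ W i ↔ T i v.1 ∈ V i) := by
    intro i hi v hv
    rw [hW]
    simp only [dif_pos hi]
    rw [mem_cs_pj hv]
    exact ⟨fun h => h.2, fun h => ⟨hv, h⟩⟩
  have hUm : ∀ i, ∀ v : {v : Fin 3 → k // v ≠ 0}, ‖v.1‖ = 1 →
      (pj k (Fin 3) v ∈ U i ↔ ‖dt (η i) v.1‖ ≤ Cc * r) := by
    intro i v hv
    rw [hU]
    simp only
    rw [mem_cs_pj hv]
    exact ⟨fun h => h.2, fun h => ⟨hv, h⟩⟩
  have hKW : KD Cc ε r N S η (fun i => W i ⊓ U i) := by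
    refine ⟨hr, hr1, hη, fun i hi v hv hx => (hUm i v hv).1 hx.2, ?_, hcap⟩
    intro i hi v w hv hw hx h1 h2
    have hT := (hWm i hi v hv).1 hx.1
    have hstr := (hUm i v hv).1 hx.2
    refine ⟨(hWm i hi w hw).2 (((hD i hi).loc (hV i hi) hC hδ hr hv h1 h2).1 hT),
      (hUm i w hw).2 ?_⟩
    have e : dt (η i) w.1 = dt (η i) v.1 - dt (η i) (v.1 - w.1) := by rw [dt_sub]; ring
    rw [e]
    refine (nsub_le _ _).trans (max_le hstr (h2.trans ?_))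
    exact mul_le_mul_of_nonneg_right (hε1.trans hCc1) hr.le
  have hKU : KD Cc ε r N S η U := by
    refine ⟨hr, hr1, hη, fun i hi v hv hx => (hUm i v hv).1 hx, ?_, hcap⟩
    intro i hi v w hv hw hx h1 h2
    have hstr := (hUm i v hv).1 hx
    refine (hUm i w hw).2 ?_
    have e : dt (η i) w.1 = dt (η i) v.1 - dt (η i) (v.1 - w.1) := by rw [dt_sub]; ring
    rw [e]
    refine (nsub_le _ _).trans (max_le hstr (h2.trans ?_))
    exact mul_le_mul_of_nonneg_right (hε1.trans hCc1) hr.le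
  have k1 := key K _ _ _ _ q r κ S η _ hKW hCr ξ
  have k2 := key K _ _ _ _ q r κ S η _ hKU hCr ξ
  have k3 : ∑ i ∈ S, ‖pc t ht0 Lm (Bal (η i) (Cc * r) (hη i).le hCr) ξ‖ ^ 2 ≤ N * ‖ξ‖ ^ 2 := by
    refine sum_le_mult q.hLm S (fun i => Bal (η i) (Cc * r) (hη i).le hCr) N ?_ ?_ ξ
    · intro i _ j _
      by_cases hij : ‖wd (η i) (η j)‖ ≤ Cc * r
      · exact Or.inl (Bal_eq (hη i) (hη j) hCr hij)
      · exact Or.inr (Bal_disj (hη i) (hη j) hCr hij)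
    · intro i hi t' ht' hti
      exact hcap i hi t' ht' fun j hj => wd_of_Bal_eq (hη j) (hη i) hCr (hti j hj)
  -- one index
  have hone : ∀ i ∈ S, ‖Lm (B i) (Pb {x | T i (s x) ∈ V i} ξ)‖ ^ 2 ≤
      3 * (‖pc t ht0 Lm (Bal (η i) (Cc * r) (hη i).le hCr) (pc s hs0 Pb (W i ⊓ U i) ξ)‖ ^ 2 +
        ‖pc t ht0 Lm (Bal (η i) (Cc * r) (hη i).le hCr) ξ‖ ^ 2 +
        ‖pc t ht0 Lm (Bal (η i) (Cc * r) (hη i).le hCr) (pc s hs0 Pb (U i) ξ)‖ ^ 2) := by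
    intro i hi
    set L := pc t ht0 Lm (Bal (η i) (Cc * r) (hη i).le hCr) with hL
    have e1 : {x | T i (s x) ∈ V i} = pt s hs0 ⁻¹' (W i : Set (ℙ k (Fin 3 → k))) := by
      ext x
      obtain ⟨c, hc0, h1, h2⟩ := nv_pt (hs0 := hs0) x
      have h3 : (pj k (Fin 3) ⟨nv (pt s hs0 x), nv_ne _⟩ ∈ W i ↔ T i (nv (pt s hs0 x)) ∈ V i) :=
        hWm i hi ⟨nv (pt s hs0 x), nv_ne _⟩ (norm_nv _)
      rw [pj_nv, h1, map_smul, (hV i hi).hom c _ hc0] at h3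
      exact h3.symm
    have e2 : Pb {x | T i (s x) ∈ V i} = pc s hs0 Pb (W i) := by rw [e1]; rfl
    have e3 : pc s hs0 Pb (W i) = pc s hs0 Pb (W i ⊓ U i) + pc s hs0 Pb (W i ⊓ (U i)ᶜ) := by
      have h4 : W i = (W i ⊓ U i) ⊔ (W i ⊓ (U i)ᶜ) := by
        rw [← inf_sup_left, sup_compl_eq_top, inf_top_eq]
      conv_lhs => rw [h4]
      exact q.hPb.add (disjoint_compl_right.mono inf_le_right inf_le_right)
    have e4 : ‖Lm (B i) (Pb {x | T i (s x) ∈ V i} ξ)‖ ≤ ‖L (pc s hs0 Pb (W i) ξ)‖ := by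
      rw [e2]
      refine hm.norm_le_of_subset (hB i hi) (meas_pt ht _) (fun y hy => ?_) _
      exact (mem_bal (hs0 := ht0) (hη i).le hCr y).2 (hBs i hi y hy)
    -- off the strip
    have e5 : pc s hs0 Pb (W i ⊓ (U i)ᶜ) = if β i ∈ V i then 1 - pc s hs0 Pb (U i) else 0 := by
      have hoff : ∀ x : ℙ k (Fin 3 → k), x ∉ U i → (x ∈ W i ↔ β i ∈ V i) := by
        intro x hx
        have h1 := hWm i hi ⟨nv x, nv_ne x⟩ (norm_nv x)
        have h2 := hUm i ⟨nv x, nv_ne x⟩ (norm_nv x)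
        rw [pj_nv] at h1 h2
        rw [h1]
        refine (hD i hi).off (hV i hi) hC hδ (norm_nv x) (not_le.1 fun h3 => hx (h2.2 h3))
      by_cases hβ : β i ∈ V i
      · rw [if_pos hβ]
        have h5 : W i ⊓ (U i)ᶜ = (U i)ᶜ := by
          refine inf_eq_right.2 fun x hx => ?_
          exact (hoff x hx).2 hβ
        rw [h5, q.hPb.compl]
      · rw [if_neg hβ]
        have h5 : W i ⊓ (U i)ᶜ = ⊥ := by
          refine le_bot_iff.1 fun x hx => ?_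
          exact hβ ((hoff x hx.2).1 hx.1)
        rw [h5, q.hPb.bot]
    refine sq_three (norm_nonneg _) (norm_nonneg _) (norm_nonneg _) (norm_nonneg _) (e4.trans ?_)
    rw [e3, ContinuousLinearMap.add_apply, map_add]
    refine (norm_add_le _ _).trans ?_
    rw [add_assoc]
    refine add_le_add le_rfl ?_
    rw [e5]
    split_ifs with hβ
    · rw [ContinuousLinearMap.sub_apply, map_sub]
      exact norm_sub_le _ _
    · rw [ContinuousLinearMap.zero_apply, map_zero, norm_zero]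
      positivity
  have hlog : 0 ≤ Real.log (1 / r) := Real.log_nonneg (by rw [le_div_iff₀ hr]; linarith)
  have hL1 : 1 ≤ (1 + Real.log (1 / r)) ^ 2 := one_le_pow₀ (by linarith)
  refine (Finset.sum_le_sum hone).trans ?_
  rw [← Finset.mul_sum, Finset.sum_add_distrib, Finset.sum_add_distrib]
  have k3' : ∑ i ∈ S, ‖pc t ht0 Lm (Bal (η i) (Cc * r) (hη i).le hCr) ξ‖ ^ 2 ≤
      N * (1 + Real.log (1 / r)) ^ 2 * ‖ξ‖ ^ 2 := by
    refine k3.trans ?_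
    have : (N : ℝ) * ‖ξ‖ ^ 2 * 1 ≤ N * ‖ξ‖ ^ 2 * (1 + Real.log (1 / r)) ^ 2 :=
      mul_le_mul_of_nonneg_left hL1 (by positivity)
    linarith
  calc 3 * (_ + _ + _) ≤ 3 * (K0 * (1 + Real.log (1 / r)) ^ 2 * ‖ξ‖ ^ 2 +
        N * (1 + Real.log (1 / r)) ^ 2 * ‖ξ‖ ^ 2 +
        K0 * (1 + Real.log (1 / r)) ^ 2 * ‖ξ‖ ^ 2) := by
          refine mul_le_mul_of_nonneg_left ?_ (by norm_num)
          exact add_le_add (add_le_add k1 k3') k2
    _ = _ := by ring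

/-- **the planar estimate for cones, relative to a projection** -/
theorem kak_cone_rel {C δ : ℝ} (hC : 1 ≤ C) (hδ : 0 < δ) (hδ1 : δ ≤ 1) (N : ℕ) :
    ∃ D : ℝ, 0 ≤ D ∧ ∀ (K : Type u) [NormedAddCommGroup K] [InnerProductSpace ℂ K]
      [CompleteSpace K] (X Y : Type v) [MeasurableSpace X] [MeasurableSpace Y] (F : Type v)
      [NormedAddCommGroup F] [NormedSpace k F] (s : X → Fin 3 → k) (t : Y → Fin 3 → k)
      (hs : Measurable s) (ht : Measurable t) (hs0 : ∀ x, s x ≠ 0) (ht0 : ∀ y, t y ≠ 0)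
      (Pb Pc : Set X → (K →L[ℂ] K)) (Ll Lm : Set Y → (K →L[ℂ] K)) (hb : Pv Pb) (hc : Pv Pc)
      (hl : Pv Ll) (hm : Pv Lm) (E : K →L[ℂ] K) (hE : E * E = E) (hEs : star E = E)
      (hbE : CE E Pb) (hcE : CE E Pc) (hlE : CE E Ll) (hmE : CE E Lm)
      (hbl : CIR E (IncU s t) Pb Ll) (hcl : CIR E (IncU s t) Pc Ll)
      (hcm : CIR E (IncU s t) Pc Lm) (κ : Type v) (S : Finset κ)
      (T : κ → ((Fin 3 → k) →ₗ[k] F))
      (η : κ → Fin 3 → k) (β : κ → F) (V : κ → Set F) (r : ℝ) (hr : 0 < r) (hr1 : r ≤ 1)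
      (hη : ∀ i, ‖η i‖ = 1)
      (hcap : ∀ i ∈ S, ∀ t ⊆ S, (∀ j ∈ t, ‖wd (η j) (η i)‖ ≤ C ^ 2 / δ * r) → t.card ≤ N)
      (hD : ∀ i ∈ S, Dat C r (T i) (η i) (β i)) (hV : ∀ i ∈ S, Cone k δ (V i)) (B : κ → Set Y)
      (hB : ∀ i ∈ S, MeasurableSet (B i))
      (hBs : ∀ i ∈ S, ∀ y ∈ B i, ‖wd (t y) (η i)‖ ≤ C ^ 2 / δ * r * ‖t y‖) (ξ : K),
      ∑ i ∈ S, ‖Lm (B i) (Pb {x | T i (s x) ∈ V i} (E ξ))‖ ^ 2 ≤
        D * (1 + Real.log (1 / r)) ^ 2 * ‖E ξ‖ ^ 2 := by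
  classical
  obtain ⟨D, hD0, key⟩ := kak_cone.{u, v} (k := k) hC hδ hδ1 N
  refine ⟨D, hD0, ?_⟩
  intro K _ _ _ X Y _ _ F _ _ s t hs ht hs0 ht0 Pb Pc Ll Lm hb hc hl hm E hE hEs hbE hcE hlE hmE
    hbl hcl hcm κ S T η β V r hr hr1 hη hcap hD hV B hB hBs ξ
  have hEE : ∀ v, E (E v) = E v := fun v => by
    rw [← ContinuousLinearMap.mul_apply, hE]
  by_cases h0 : ∃ x₀ : X, ∃ y₀ : Y, IncU s t x₀ y₀
  · obtain ⟨x₀, y₀, h0⟩ := h0
    have h1 := key K X Y F s t hs ht hs0 ht0 _ _ _ _ (md_pv hb hE hEs hbE x₀)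
      (md_pv hc hE hEs hcE x₀) (md_pv hl hE hEs hlE y₀) (md_pv hm hE hEs hmE y₀)
      (md_ci hbl hE hbE hlE h0) (md_ci hcl hE hcE hlE h0) (md_ci hcm hE hcE hmE h0) κ S T η β V r
      hr hr1 hη hcap hD hV B hB hBs (E ξ)
    refine le_trans (le_of_eq ?_) h1
    refine Finset.sum_congr rfl fun i hi => ?_
    have e1 : md E x₀ Pb {x | T i (s x) ∈ V i} (E ξ) = Pb {x | T i (s x) ∈ V i} (E ξ) :=
      congrArg (fun T : K →L[ℂ] K => T ξ) (md_E (P := Pb) hE x₀ {x | T i (s x) ∈ V i})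
    have hm1 : MeasurableSet {x | T i (s x) ∈ V i} := by
      have hcl := clopen_cone (hD i hi) (hV i hi) (hη i) hC hδ hδ1 hr hr1
      have e : {x | T i (s x) ∈ V i} = pt s hs0 ⁻¹' ((cs _ hcl (uinv_cone (hV i hi)) :
          Clopens (ℙ k (Fin 3 → k))) : Set (ℙ k (Fin 3 → k))) := by
        ext x
        obtain ⟨c, hc0, h1, h2⟩ := nv_pt (hs0 := hs0) x
        change T i (s x) ∈ V i ↔ ‖nv (pt s hs0 x)‖ = 1 ∧ T i (nv (pt s hs0 x)) ∈ V i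
        rw [norm_nv, h1, map_smul, (hV i hi).hom c _ hc0]
        simp
      rw [e]
      exact meas_pt hs _
    have e2 : Pb {x | T i (s x) ∈ V i} (E ξ) = E (Pb {x | T i (s x) ∈ V i} ξ) :=
      congrArg (fun T : K →L[ℂ] K => T ξ) (hbE.comm _ hm1)
    have e3 : ∀ v, md E y₀ Lm (B i) (E v) = Lm (B i) (E v) := fun v =>
      congrArg (fun T : K →L[ℂ] K => T v) (md_E (P := Lm) hE y₀ (B i))
    rw [e1, e2, e3]
  · have hE0 : E = 0 := by
      have h1 := hbl.inc Set.univ Set.univ MeasurableSet.univ MeasurableSet.univ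
        (fun x _ ν _ hI => h0 ⟨x, ν, hI⟩)
      rw [hb.univ, hl.univ, one_mul, one_mul] at h1
      exact h1
    rw [hE0]
    simp

end main

end Vale.Agent.P092.H68.KakU
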