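import Vale.Agent.P092.H99.Cell
import Vale.Agent.P092.H835.PlF
import Vale.Agent.P092.H68.KakU1

/-!
P092, TEAM N (helper68), second route over ultrametric fields, part 2: the restriction of a
near-wall matrix (hyperplane type) to the lines of a three dimensional space, and the geometry of a
slice.  Port of helper99's `Lin`, `KnA` to a general field, with thick cones instead of Lipschitz
functions.
-/

set_option linter.all false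

open Module Set
open scoped Matrix

namespace Vale.Agent.P092.H68.LinU

open Vale.Agent.P092.H100.Gr Vale.Agent.P092.H99.Sec Vale.Agent.P092.H835.PlF
open Vale.Agent.P092.H87.N (cn cn_nonneg)
open Vale.Agent.P092.H820 (wd wd_continuous)
open Vale.Agent.P092.H375.Ultra (cr)
open Vale.Agent.P092.H68.KakU (Dat Cone)

variable {k : Type*} [NontriviallyNormedField k] {ι : Type*} [Fintype ι]

/-- the vector with the coordinates `x` in the frame -/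
noncomputable def Vf (v₀ : Fin 3 → ι → k) (x : Fin 3 → k) : ι → k := ∑ a, x a • v₀ a

theorem Vf_apply (v₀ : Fin 3 → ι → k) (x : Fin 3 → k) (i : ι) :
    Vf v₀ x i = x 0 * v₀ 0 i + x 1 * v₀ 1 i + x 2 * v₀ 2 i := by
  simp [Vf, Fin.sum_univ_three]

/-- the 2-vector with normal `s` -/
noncomputable def om (v₀ : Fin 3 → ι → k) : (Fin 3 → k) →ₗ[k] (ι × ι → k) where
  toFun s := s 0 • wd (v₀ 1) (v₀ 2) + s 1 • wd (v₀ 2) (v₀ 0) + s 2 • wd (v₀ 0) (v₀ 1)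
  map_add' s s' := by
    funext p
    simp only [Pi.add_apply, Pi.smul_apply, smul_eq_mul]
    ring
  map_smul' c s := by
    funext p
    simp only [Pi.add_apply, Pi.smul_apply, smul_eq_mul, RingHom.id_apply]
    ring

theorem om_apply (v₀ : Fin 3 → ι → k) (s : Fin 3 → k) (p : ι × ι) : om v₀ s p =
    s 0 * wd (v₀ 1) (v₀ 2) p + s 1 * wd (v₀ 2) (v₀ 0) p + s 2 * wd (v₀ 0) (v₀ 1) p := rfl

theorem om_cr (v₀ : Fin 3 → ι → k) (p q : Fin 3 → k) :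
    om v₀ (cr p q) = wd (Vf v₀ p) (Vf v₀ q) := by
  funext x
  rw [om_apply]
  simp only [cr, wd, Vf_apply, Matrix.cons_val_zero, Matrix.cons_val_one, Matrix.cons_val]
  ring

theorem om_alt (v₀ : Fin 3 → ι → k) (s : Fin 3 → k) : Alt (om v₀ s) := by
  refine ⟨fun i => ?_, fun i j => ?_⟩
  · rw [om_apply]; simp only [wd]; ring
  · rw [om_apply, om_apply]; simp only [wd]; ring

section frame

variable {I : Fin 3 → ι} {v₀ : Fin 3 → ι → k}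

theorem fr_eq (hv : v₀ ∈ ch (k := k) I) (b a : Fin 3) : v₀ b (I a) = if b = a then 1 else 0 := by
  rw [hv.1 b a, Matrix.one_apply]

theorem om_12 (hv : v₀ ∈ ch (k := k) I) (s : Fin 3 → k) : om v₀ s (I 1, I 2) = s 0 := by
  rw [om_apply]; simp [wd, fr_eq hv]

theorem om_20 (hv : v₀ ∈ ch (k := k) I) (s : Fin 3 → k) : om v₀ s (I 2, I 0) = s 1 := by
  rw [om_apply]; simp [wd, fr_eq hv]

theorem om_01 (hv : v₀ ∈ ch (k := k) I) (s : Fin 3 → k) : om v₀ s (I 0, I 1) = s 2 := by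
  rw [om_apply]; simp [wd, fr_eq hv]

theorem om_02 (hv : v₀ ∈ ch (k := k) I) (s : Fin 3 → k) : om v₀ s (I 0, I 2) = - s 1 := by
  rw [om_apply]; simp [wd, fr_eq hv]

theorem norm_le_om (hv : v₀ ∈ ch (k := k) I) (s : Fin 3 → k) : ‖s‖ ≤ ‖om v₀ s‖ := by
  refine (pi_norm_le_iff_of_nonneg (norm_nonneg _)).2 fun a => ?_
  fin_cases a
  · change ‖s 0‖ ≤ _
    rw [← om_12 hv s]; exact norm_le_pi_norm _ _
  · change ‖s 1‖ ≤ _
    rw [← om_20 hv s]; exact norm_le_pi_norm _ _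
  · change ‖s 2‖ ≤ _
    rw [← om_01 hv s]; exact norm_le_pi_norm _ _

theorem wd_le {x y : ι → k} {a b : ℝ} (hx : ‖x‖ ≤ a) (hy : ‖y‖ ≤ b) : ‖wd x y‖ ≤ 2 * (a * b) := by
  have ha : 0 ≤ a := (norm_nonneg _).trans hx
  have hb : 0 ≤ b := (norm_nonneg _).trans hy
  refine (pi_norm_le_iff_of_nonneg (by positivity)).2 fun p => ?_
  have h1 : ∀ i j, ‖x i * y j‖ ≤ a * b := fun i j => by
    rw [norm_mul]
    exact mul_le_mul ((norm_le_pi_norm x i).trans hx) ((norm_le_pi_norm y j).trans hy)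
      (norm_nonneg _) ha
  have := norm_sub_le (x p.1 * y p.2) (x p.2 * y p.1)
  have h2 := h1 p.1 p.2
  have h3 := h1 p.2 p.1
  calc ‖wd x y p‖ ≤ ‖x p.1 * y p.2‖ + ‖x p.2 * y p.1‖ := this
    _ ≤ 2 * (a * b) := by linarith

theorem frame_le (hv : v₀ ∈ ch (k := k) I) (a : Fin 3) : ‖v₀ a‖ ≤ 1 :=
  (pi_norm_le_iff_of_nonneg zero_le_one).2 (hv.2 a)

theorem om_le (hv : v₀ ∈ ch (k := k) I) (s : Fin 3 → k) : ‖om v₀ s‖ ≤ 6 * ‖s‖ := by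
  have h1 : ∀ a b, ‖wd (v₀ a) (v₀ b)‖ ≤ 2 := fun a b => by
    have := wd_le (frame_le hv a) (frame_le hv b)
    linarith
  have h2 : ∀ a b c, ‖s c • wd (v₀ a) (v₀ b)‖ ≤ ‖s‖ * 2 := fun a b c => by
    rw [norm_smul]
    exact mul_le_mul (norm_le_pi_norm s c) (h1 a b) (norm_nonneg _) (norm_nonneg _)
  have e : om v₀ s = s 0 • wd (v₀ 1) (v₀ 2) + s 1 • wd (v₀ 2) (v₀ 0) + s 2 • wd (v₀ 0) (v₀ 1) :=
    rfl
  rw [e]
  have := norm_add₃_le (a := s 0 • wd (v₀ 1) (v₀ 2)) (b := s 1 • wd (v₀ 2) (v₀ 0))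
    (c := s 2 • wd (v₀ 0) (v₀ 1))
  have a1 := h2 1 2 0
  have a2 := h2 2 0 1
  have a3 := h2 0 1 2
  linarith

theorem Vf_le (hv : v₀ ∈ ch (k := k) I) (x : Fin 3 → k) : ‖Vf v₀ x‖ ≤ 3 * ‖x‖ := by
  unfold Vf
  refine (norm_sum_le _ _).trans ?_
  calc ∑ a : Fin 3, ‖x a • v₀ a‖ ≤ ∑ _a : Fin 3, ‖x‖ := by
        refine Finset.sum_le_sum fun a _ => ?_
        rw [norm_smul]
        calc ‖x a‖ * ‖v₀ a‖ ≤ ‖x‖ * 1 :=
              mul_le_mul (norm_le_pi_norm x a) (frame_le hv a) (norm_nonneg _) (norm_nonneg _)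
          _ = ‖x‖ := mul_one _
    _ = 3 * ‖x‖ := by simp

theorem w3_om (hv : v₀ ∈ ch (k := k) I) (x : ι → k) (s : Fin 3 → k) :
    w3 x (om v₀ s) (I 0, (I 1, I 2)) = x (I 0) * s 0 + x (I 1) * s 1 + x (I 2) * s 2 := by
  simp only [w3, om_12 hv, om_02 hv, om_01 hv]
  ring

end frame

/-- the model operator on the lines of the three space -/
noncomputable def Tm (A : Matrix ι ι k) (c : k) (v₀ : Fin 3 → ι → k) :
    (Fin 3 → k) →ₗ[k] (ι × ι → k) := c⁻¹ • (Matrix.mulVecLin (H835.PlF.sq A)).comp (om v₀)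

theorem Tm_apply (A : Matrix ι ι k) (c : k) (v₀ : Fin 3 → ι → k) (s : Fin 3 → k) :
    Tm A c v₀ s = c⁻¹ • (H835.PlF.sq A *ᵥ om v₀ s) := rfl

theorem cr_cr (η v : Fin 3 → k) (m : Fin 3) :
    cr η (cr v (Pi.single m 1)) = (η m) • v - (H375.Ultra.dt η v) • (Pi.single m 1 : Fin 3 → k) := by
  funext i
  rw [Pi.sub_apply, Pi.smul_apply, Pi.smul_apply, H375.Ultra.dt]
  fin_cases m <;> fin_cases i <;> simp [cr, Pi.single_apply] <;> ring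

theorem cr_single_le (v : Fin 3 → k) (m : Fin 3) : ‖cr v (Pi.single m 1)‖ ≤ ‖v‖ := by
  have h : ∀ a, ‖v a‖ ≤ ‖v‖ := fun a => norm_le_pi_norm v a
  refine (pi_norm_le_iff_of_nonneg (norm_nonneg _)).2 fun i => ?_
  fin_cases m <;> fin_cases i <;> simp [cr, Pi.single_apply] <;>
    first | exact h 0 | exact h 1 | exact h 2

section main

variable {A B : Matrix ι ι k} {N r C C₁ κ : ℝ} {c : k} {η : ι → k} {I : Fin 3 → ι}
  {v₀ : Fin 3 → ι → k}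
variable {m : Fin 3}

theorem Tm_norm (v : Fin 3 → k) : ‖Tm A c v₀ v‖ = ‖c‖⁻¹ * ‖H835.PlF.sq A *ᵥ om v₀ v‖ := by
  rw [Tm_apply, norm_smul, norm_inv]

theorem Tm_low' (h : Hw A B N r C) (hv : v₀ ∈ ch (k := k) I) (hκ : ‖c‖ ≤ κ * N ^ 2)
    (hc : 0 < ‖c‖) (v : Fin 3 → k) :
    r * ‖v‖ ≤ 3 * cn ι ^ 2 * C ^ 2 * κ * ‖Tm A c v₀ v‖ := by
  have hN := h.N_pos
  have h1 := h.low_sq (om_alt v₀ v)
  have h2 := norm_le_om hv v
  have h3 : r * N ^ 2 * ‖v‖ ≤ 3 * cn ι ^ 2 * C ^ 2 * ‖H835.PlF.sq A *ᵥ om v₀ v‖ :=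
    (mul_le_mul_of_nonneg_left h2 (mul_nonneg h.r_pos.le (by positivity))).trans h1
  have h4 : (N ^ 2)⁻¹ ≤ κ * ‖c‖⁻¹ := by
    rw [← div_eq_mul_inv, le_div_iff₀ hc, inv_mul_le_iff₀ (by positivity)]
    linarith
  rw [Tm_norm]
  calc r * ‖v‖ = (N ^ 2)⁻¹ * (r * N ^ 2 * ‖v‖) := by field_simp
    _ ≤ (κ * ‖c‖⁻¹) * (3 * cn ι ^ 2 * C ^ 2 * ‖H835.PlF.sq A *ᵥ om v₀ v‖) :=
        mul_le_mul h4 h3 (mul_nonneg (mul_nonneg h.r_pos.le (by positivity)) (norm_nonneg _))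
          ((by positivity : (0:ℝ) ≤ (N ^ 2)⁻¹).trans h4)
    _ = _ := by ring

theorem Tm_low (h : Hw A B N r C) (hv : v₀ ∈ ch (k := k) I) (hκ : ‖c‖ ≤ κ * N ^ 2)
    (hc : 0 < ‖c‖) (hη : ‖A *ᵥ η‖ ≤ C * (r * N) * ‖η‖)
    (hη1 : ‖η‖ ≤ 1) (hm : 1 / 6 ≤ ‖η (I m)‖) (v : Fin 3 → k) :
    ‖H375.Ultra.dt (fun a => η (I a) / η (I m)) v‖ ≤
      72 * cn ι ^ 3 * C ^ 3 * C * κ * ‖Tm A c v₀ v‖ := by
  have hN := h.N_pos
  have hC := h.C_pos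
  have hcn := cn_nonneg (ι := ι)
  have hm0 : 0 < ‖η (I m)‖ := lt_of_lt_of_le (by norm_num) hm
  have e0 : H375.Ultra.dt (fun a => η (I a) / η (I m)) v =
      w3 η (om v₀ v) (I 0, (I 1, I 2)) / η (I m) := by
    rw [w3_om hv]
    simp only [H375.Ultra.dt]
    ring
  have h1 := h.p2 hη (om_alt v₀ v)
  have h2 : ‖w3 η (om v₀ v) (I 0, (I 1, I 2))‖ ≤ ‖w3 η (om v₀ v)‖ :=
    norm_le_pi_norm (w3 η (om v₀ v)) (I 0, (I 1, I 2))
  have h3 : N ^ 2 * ‖w3 η (om v₀ v) (I 0, (I 1, I 2))‖ ≤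
      12 * cn ι ^ 3 * C ^ 3 * C * ‖H835.PlF.sq A *ᵥ om v₀ v‖ := by
    refine (mul_le_mul_of_nonneg_left h2 (by positivity)).trans (h1.trans ?_)
    have : ‖η‖ * ‖H835.PlF.sq A *ᵥ om v₀ v‖ ≤ ‖H835.PlF.sq A *ᵥ om v₀ v‖ :=
      mul_le_of_le_one_left (norm_nonneg _) hη1
    exact mul_le_mul_of_nonneg_left this (by positivity)
  have h4 : (N ^ 2)⁻¹ ≤ κ * ‖c‖⁻¹ := by
    rw [← div_eq_mul_inv, le_div_iff₀ hc, inv_mul_le_iff₀ (by positivity)]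
    linarith
  rw [e0, norm_div, div_le_iff₀ hm0, Tm_norm]
  have h5 : ‖w3 η (om v₀ v) (I 0, (I 1, I 2))‖ ≤
      12 * cn ι ^ 3 * C ^ 3 * C * κ * (‖c‖⁻¹ * ‖H835.PlF.sq A *ᵥ om v₀ v‖) := by
    calc ‖w3 η (om v₀ v) (I 0, (I 1, I 2))‖ =
          (N ^ 2)⁻¹ * (N ^ 2 * ‖w3 η (om v₀ v) (I 0, (I 1, I 2))‖) := by field_simp
      _ ≤ (κ * ‖c‖⁻¹) * (12 * cn ι ^ 3 * C ^ 3 * C * ‖H835.PlF.sq A *ᵥ om v₀ v‖) :=
          mul_le_mul h4 h3 (by positivity) ((by positivity : (0:ℝ) ≤ (N ^ 2)⁻¹).trans h4)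
      _ = _ := by ring
  have hκ0 : 0 ≤ κ := by
    by_contra hk
    have : κ * N ^ 2 < 0 := mul_neg_of_neg_of_pos (not_le.1 hk) (by positivity)
    linarith [norm_nonneg c]
  have h6 : 0 ≤ 72 * cn ι ^ 3 * C ^ 3 * C * κ * (‖c‖⁻¹ * ‖H835.PlF.sq A *ᵥ om v₀ v‖) := by positivity
  nlinarith

theorem Tm_bet (h : Hw A B N r C) (hv : v₀ ∈ ch (k := k) I) (hc : N ^ 2 ≤ ‖c‖) (v : Fin 3 → k) :
    ‖Tm A c v₀ v‖ ≤ 6 * cn ι ^ 2 * C ^ 2 * ‖v‖ := by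
  have hN := h.N_pos
  have hC := h.C_pos
  have hcn := cn_nonneg (ι := ι)
  have h1 : ‖c‖⁻¹ ≤ (N ^ 2)⁻¹ := inv_anti₀ (by positivity) hc
  rw [Tm_norm]
  calc ‖c‖⁻¹ * ‖H835.PlF.sq A *ᵥ om v₀ v‖ ≤
        (N ^ 2)⁻¹ * (cn ι ^ 2 * (C ^ 2 * N ^ 2 * ‖om v₀ v‖)) :=
        mul_le_mul h1 (h.up_sq _) (norm_nonneg _) (by positivity)
    _ = cn ι ^ 2 * C ^ 2 * ‖om v₀ v‖ := by field_simp
    _ ≤ cn ι ^ 2 * C ^ 2 * (6 * ‖v‖) := mul_le_mul_of_nonneg_left (om_le hv v) (by positivity)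
    _ = _ := by ring

theorem Tm_rem (h : Hw A B N r C) (hv : v₀ ∈ ch (k := k) I) (hc : N ^ 2 ≤ ‖c‖)
    (hη : ‖A *ᵥ η‖ ≤ C * (r * N) * ‖η‖)
    (hη1 : ‖η‖ ≤ 1) (hC₁ : 0 ≤ C₁) (hηp : ‖η - prj I v₀ η‖ ≤ C₁ * r) (hm : 1 / 6 ≤ ‖η (I m)‖)
    (v : Fin 3 → k) :
    ‖Tm A c v₀ v - (H375.Ultra.dt (fun a => η (I a) / η (I m)) v) •
        Tm A c v₀ (Pi.single m 1)‖ ≤
      36 * cn ι * C ^ 2 * (1 + cn ι * C₁) * r * ‖v‖ := by
  have hN := h.N_pos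
  have hr := h.r_pos
  have hC := h.C_pos
  have hcn := cn_nonneg (ι := ι)
  have hm0 : η (I m) ≠ 0 := fun h0 => by rw [h0, norm_zero] at hm; norm_num at hm
  set η' : Fin 3 → k := fun a => η (I a) / η (I m) with hη'
  have e1 : η' m = 1 := div_self hm0
  have e2 : Tm A c v₀ v - (H375.Ultra.dt η' v) • Tm A c v₀ (Pi.single m 1) =
      Tm A c v₀ (cr η' (cr v (Pi.single m 1))) := by
    rw [cr_cr, e1, one_smul, map_sub, map_smul]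
  have e3 : Tm A c v₀ (cr η' (cr v (Pi.single m 1))) =
      c⁻¹ • wd (A *ᵥ Vf v₀ η') (A *ᵥ Vf v₀ (cr v (Pi.single m 1))) := by
    rw [Tm_apply, om_cr, sq_wd]
  have e4 : Vf v₀ η' = (η (I m))⁻¹ • prj I v₀ η := by
    simp only [Vf, prj, hη', Finset.smul_sum, smul_smul]
    refine Finset.sum_congr rfl fun a _ => ?_
    rw [div_eq_inv_mul]
  have h1 : ‖A *ᵥ prj I v₀ η‖ ≤ C * (1 + cn ι * C₁) * (r * N) := by
    have e5 : A *ᵥ prj I v₀ η = A *ᵥ η - A *ᵥ (η - prj I v₀ η) := by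
      rw [Matrix.mulVec_sub]; abel
    rw [e5]
    refine (norm_sub_le _ _).trans ?_
    have h2 := h.up (η - prj I v₀ η)
    calc ‖A *ᵥ η‖ + ‖A *ᵥ (η - prj I v₀ η)‖ ≤ C * (r * N) * ‖η‖ + cn ι * (C * N * (C₁ * r)) := by
          refine add_le_add hη (h2.trans ?_)
          gcongr
      _ ≤ C * (r * N) * 1 + cn ι * (C * N * (C₁ * r)) := by gcongr
      _ = _ := by ring
  have h2 : ‖A *ᵥ Vf v₀ η'‖ ≤ 6 * (C * (1 + cn ι * C₁) * (r * N)) := by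
    rw [e4, Matrix.mulVec_smul, norm_smul, norm_inv]
    have h3 : ‖η (I m)‖⁻¹ ≤ 6 := by
      rw [inv_le_comm₀ (lt_of_lt_of_le (by norm_num) hm) (by norm_num)]
      linarith
    exact mul_le_mul h3 h1 (norm_nonneg _) (by norm_num)
  have h3 : ‖A *ᵥ Vf v₀ (cr v (Pi.single m 1))‖ ≤ cn ι * (C * N * (3 * ‖v‖)) := by
    refine (h.up _).trans ?_
    have h4 := (Vf_le hv (cr v (Pi.single m 1))).trans
      (mul_le_mul_of_nonneg_left (cr_single_le v m) (by norm_num))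
    gcongr
  have h4 : ‖c‖⁻¹ ≤ (N ^ 2)⁻¹ := inv_anti₀ (by positivity) hc
  rw [e2, e3, norm_smul, norm_inv]
  calc ‖c‖⁻¹ * ‖wd (A *ᵥ Vf v₀ η') (A *ᵥ Vf v₀ (cr v (Pi.single m 1)))‖ ≤
        (N ^ 2)⁻¹ * (2 * (6 * (C * (1 + cn ι * C₁) * (r * N)) * (cn ι * (C * N * (3 * ‖v‖))))) :=
        mul_le_mul h4 (wd_le h2 h3) (norm_nonneg _) (by positivity)
    _ = _ := by field_simp; ring

/-- the constant of a slice -/
noncomputable def Cs (n C κ : ℝ) : ℝ :=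
  C + 6 * n ^ 2 * C ^ 2 + 36 * n * C ^ 2 * (1 + n * (4 * C + 1)) + 72 * n ^ 3 * C ^ 3 * C * κ +
    3 * n ^ 2 * C ^ 2 * κ + 36 * C

theorem Cs_ge {n C κ : ℝ} (hn0 : 0 ≤ n) (hC0 : 0 < C) (hκ : 0 ≤ κ) : C ≤ Cs n C κ ∧
    6 * n ^ 2 * C ^ 2 ≤ Cs n C κ ∧
    36 * n * C ^ 2 * (1 + n * (4 * C + 1)) ≤ Cs n C κ ∧ 72 * n ^ 3 * C ^ 3 * C * κ ≤ Cs n C κ ∧
    3 * n ^ 2 * C ^ 2 * κ ≤ Cs n C κ ∧ 36 * C ≤ Cs n C κ := by
  have a1 : 0 ≤ 6 * n ^ 2 * C ^ 2 := by positivity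
  have a2 : 0 ≤ 36 * n * C ^ 2 * (1 + n * (4 * C + 1)) := by positivity
  have a3 : 0 ≤ 72 * n ^ 3 * C ^ 3 * C * κ := by positivity
  have a4 : 0 ≤ 3 * n ^ 2 * C ^ 2 * κ := by positivity
  unfold Cs
  refine ⟨?_, ?_, ?_, ?_, ?_, ?_⟩ <;> linarith

/-- **the data of a slice** -/
theorem dat_of (h : Hw A B N r C) (hv : v₀ ∈ ch (k := k) I) (hc1 : N ^ 2 ≤ ‖c‖)
    (hc2 : ‖c‖ ≤ κ * N ^ 2) (hη : ‖A *ᵥ η‖ ≤ C * (r * N) * ‖η‖) (hη1 : ‖η‖ ≤ 1)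
    (hηp : ‖η - prj I v₀ η‖ ≤ (4 * C + 1) * r) (hm : 1 / 6 ≤ ‖η (I m)‖) :
    Dat (Cs (cn ι) C κ) r (Tm A c v₀) (fun a => η (I a) / η (I m))
      (Tm A c v₀ (Pi.single m 1)) := by
  have hN := h.N_pos
  have hC := h.C_pos
  have hc0 : 0 < ‖c‖ := lt_of_lt_of_le (by positivity) hc1
  have hκ0 : 0 ≤ κ := by
    by_contra hk
    have : κ * N ^ 2 < 0 := mul_neg_of_neg_of_pos (not_le.1 hk) (by positivity)
    linarith
  obtain ⟨b1, b2, b3, b4, b5, b6⟩ := Cs_ge (cn_nonneg (ι := ι)) hC hκ0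
  refine ⟨fun v => ?_, ?_, fun v => ?_, fun v => ?_⟩
  · refine (Tm_rem h hv hc1 hη hη1 (by positivity) hηp hm v).trans ?_
    exact mul_le_mul_of_nonneg_right (mul_le_mul_of_nonneg_right b3 h.r_pos.le) (norm_nonneg _)
  · refine (Tm_bet h hv hc1 _).trans ?_
    have : ‖(Pi.single m 1 : Fin 3 → k)‖ ≤ 1 :=
      (pi_norm_le_iff_of_nonneg zero_le_one).2 fun a => by
        by_cases h : a = m
        · subst h; simp
        · simp [Pi.single_apply, h]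
    have h0 : 0 ≤ 6 * cn ι ^ 2 * C ^ 2 := by positivity
    calc 6 * cn ι ^ 2 * C ^ 2 * ‖(Pi.single m 1 : Fin 3 → k)‖ ≤
          6 * cn ι ^ 2 * C ^ 2 * 1 := mul_le_mul_of_nonneg_left this h0
      _ ≤ Cs (cn ι) C κ := by linarith
  · refine (Tm_low h hv hc2 hc0 hη hη1 hm v).trans ?_
    exact mul_le_mul_of_nonneg_right b4 (norm_nonneg _)
  · refine (Tm_low' h hv hc2 hc0 v).trans ?_
    exact mul_le_mul_of_nonneg_right b5 (norm_nonneg _)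

end main

section slice

variable {I : Fin 3 → ι} {v₀ : Fin 3 → ι → k}

theorem prj_le (hv : v₀ ∈ ch (k := k) I) (w : ι → k) : ‖prj I v₀ w‖ ≤ 3 * ‖w‖ := by
  unfold prj
  refine (norm_sum_le _ _).trans ?_
  calc ∑ a : Fin 3, ‖w (I a) • v₀ a‖ ≤ ∑ _a : Fin 3, ‖w‖ := by
        refine Finset.sum_le_sum fun a _ => ?_
        rw [norm_smul]
        calc ‖w (I a)‖ * ‖v₀ a‖ ≤ ‖w‖ * 1 :=
              mul_le_mul (norm_le_pi_norm w _) (frame_le hv a) (norm_nonneg _) (norm_nonneg _)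
          _ = ‖w‖ := mul_one _
    _ = 3 * ‖w‖ := by simp

theorem prj_le' (hv : v₀ ∈ ch (k := k) I) (w : ι → k) {M : ℝ} (hM : ∀ a, ‖w (I a)‖ ≤ M) :
    ‖prj I v₀ w‖ ≤ 3 * M := by
  unfold prj
  refine (norm_sum_le _ _).trans ?_
  calc ∑ a : Fin 3, ‖w (I a) • v₀ a‖ ≤ ∑ _a : Fin 3, M := by
        refine Finset.sum_le_sum fun a _ => ?_
        rw [norm_smul]
        calc ‖w (I a)‖ * ‖v₀ a‖ ≤ M * 1 :=
              mul_le_mul (hM a) (frame_le hv a) (norm_nonneg _) ((norm_nonneg _).trans (hM a))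
          _ = M := mul_one _
    _ = 3 * M := by simp

theorem prj_sub (w w' : ι → k) : prj I v₀ (w - w') = prj I v₀ w - prj I v₀ w' := by
  simp only [prj, Pi.sub_apply, sub_smul, Finset.sum_sub_distrib]

/-- a coordinate of largest absolute value -/
theorem exists_coord {w : ι → k} (hw : w ≠ 0) : ∃ i, ‖w i‖ = ‖w‖ := by
  haveI : Nonempty ι := by
    by_contra h
    rw [not_nonempty_iff] at h
    exact hw (funext fun i => (h.elim i))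
  obtain ⟨i, hi⟩ := Finite.exists_max fun i => ‖w i‖
  refine ⟨i, le_antisymm (norm_le_pi_norm w i) ?_⟩
  exact (pi_norm_le_iff_of_nonneg (norm_nonneg _)).2 hi

/-- **A.** the contracted direction is close to the three space -/
theorem lemA (hv : v₀ ∈ ch (k := k) I) {ε r C₂ : ℝ} (hr : 0 < r) (hC₂ : 0 ≤ C₂) (hεr : ε ≤ r)
    (hsm : (4 * C₂ + 1) * r ≤ 1 / 2) {η w : ι → k} (hη : ‖η‖ = 1) (hw0 : w ≠ 0)
    (hwε : ‖w - prj I v₀ w‖ ≤ ε * ‖w‖) (hwη : ‖wd w η‖ ≤ C₂ * r * ‖w‖) :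
    ‖η - prj I v₀ η‖ ≤ (4 * C₂ + 1) * r ∧
      ∃ m : Fin 3, (∀ a, ‖η (I a)‖ ≤ ‖η (I m)‖) ∧ 1 / 6 ≤ ‖η (I m)‖ := by
  obtain ⟨i1, hi1⟩ := exists_coord hw0
  have hwn : 0 < ‖w‖ := norm_pos_iff.2 hw0
  have hwi : w i1 ≠ 0 := fun h => by rw [h, norm_zero] at hi1; linarith
  set lam : k := η i1 / w i1 with hlam
  have hlam1 : ‖lam‖ * ‖w‖ ≤ 1 := by
    rw [hlam, norm_div, hi1, div_mul_cancel₀ _ hwn.ne']
    exact (norm_le_pi_norm η i1).trans hη.le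
  have h1 : ‖η - lam • w‖ ≤ C₂ * r := by
    refine (pi_norm_le_iff_of_nonneg (by positivity)).2 fun j => ?_
    have e : (η - lam • w) j = wd w η (i1, j) / w i1 := by
      simp only [Pi.sub_apply, Pi.smul_apply, smul_eq_mul, wd, hlam]
      field_simp
    rw [e, norm_div, hi1, div_le_iff₀ hwn]
    exact (norm_le_pi_norm _ _).trans hwη
  have e1 : η - prj I v₀ η = (η - lam • w) - prj I v₀ (η - lam • w) +
      lam • (w - prj I v₀ w) := by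
    rw [prj_sub, prj_smul, smul_sub]; abel
  have h2 : ‖η - prj I v₀ η‖ ≤ (4 * C₂ + 1) * r := by
    rw [e1]
    calc ‖(η - lam • w) - prj I v₀ (η - lam • w) + lam • (w - prj I v₀ w)‖ ≤
          ‖η - lam • w‖ + ‖prj I v₀ (η - lam • w)‖ + ‖lam • (w - prj I v₀ w)‖ :=
          (norm_add_le _ _).trans (add_le_add_left (norm_sub_le _ _) _)
      _ ≤ C₂ * r + 3 * (C₂ * r) + r := by
          refine add_le_add (add_le_add h1 ((prj_le hv _).trans (by linarith))) ?_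
          rw [norm_smul]
          calc ‖lam‖ * ‖w - prj I v₀ w‖ ≤ ‖lam‖ * (ε * ‖w‖) :=
                mul_le_mul_of_nonneg_left hwε (norm_nonneg _)
            _ = ε * (‖lam‖ * ‖w‖) := by ring
            _ ≤ r * (‖lam‖ * ‖w‖) := mul_le_mul_of_nonneg_right hεr (by positivity)
            _ ≤ r * 1 := mul_le_mul_of_nonneg_left hlam1 hr.le
            _ = r := mul_one _
      _ = (4 * C₂ + 1) * r := by ring
  refine ⟨h2, ?_⟩
  obtain ⟨m, hm⟩ := Finite.exists_max fun a : Fin 3 => ‖η (I a)‖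
  refine ⟨m, hm, ?_⟩
  have h3 := prj_le' hv η hm
  have h4 : ‖η‖ ≤ ‖η - prj I v₀ η‖ + ‖prj I v₀ η‖ := by
    have := norm_add_le (η - prj I v₀ η) (prj I v₀ η)
    rwa [sub_add_cancel] at this
  rw [hη] at h4
  linarith

/-- **B.** discs -/
theorem lemB (hv : v₀ ∈ ch (k := k) I) {ε r C₂ : ℝ} (hr : 0 < r) (hC₂ : 0 ≤ C₂) (hε : ε ≤ 1 / 2)
    {η : ι → k} {m : Fin 3} (hm : 1 / 6 ≤ ‖η (I m)‖) {y : Gr k ι 1}
    (hy : y ∈ GC 1 I v₀ ε) (hyη : ∀ w ∈ y.1, ‖wd w η‖ ≤ C₂ * r * ‖w‖) :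
    ‖wd (sec (J1 I) y) (fun a => η (I a) / η (I m))‖ ≤ 36 * C₂ * r * ‖sec (J1 I) y‖ := by
  obtain ⟨v, rfl⟩ := sp_surj y
  have hinj := GC_inj (by linarith : ε < 1) hy
  obtain ⟨c, hc, e1⟩ := sec_eq (J1 I) v (vc_J1_ne hinj)
  have hm0 : 0 < ‖η (I m)‖ := lt_of_lt_of_le (by norm_num) hm
  have hmne : η (I m) ≠ 0 := fun h => by rw [h, norm_zero] at hm0; exact lt_irrefl _ hm0
  set w : ι → k := v.1 0 with hw
  have hwy : w ∈ (sp v).1 := mem_sp1.2 ⟨1, (one_smul _ _).symm⟩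
  have e2 : ∀ a, sec (J1 I) (sp v) a = c * w (I a) := fun a => by
    rw [e1]; simp only [Pi.smul_apply, smul_eq_mul, vc_J1, hw]
  have h1 := hyη w hwy
  have h2 := hy w hwy
  have hc' : 0 < ‖c‖ := norm_pos_iff.2 hc
  have hM : ∀ a, ‖w (I a)‖ ≤ ‖c‖⁻¹ * ‖sec (J1 I) (sp v)‖ := by
    intro a
    have h3 := norm_le_pi_norm (sec (J1 I) (sp v)) a
    rw [e2, norm_mul] at h3
    rw [← div_eq_inv_mul, le_div_iff₀ hc']
    linarith
  have h3 : ‖w‖ ≤ 6 * (‖c‖⁻¹ * ‖sec (J1 I) (sp v)‖) := by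
    have h4 := prj_le' hv w hM
    have h5 : ‖w‖ ≤ ‖w - prj I v₀ w‖ + ‖prj I v₀ w‖ := by
      have := norm_add_le (w - prj I v₀ w) (prj I v₀ w)
      rwa [sub_add_cancel] at this
    nlinarith [norm_nonneg w]
  refine (pi_norm_le_iff_of_nonneg (by positivity)).2 fun p => ?_
  obtain ⟨i, i'⟩ := p
  have e3 : wd (sec (J1 I) (sp v)) (fun a => η (I a) / η (I m)) (i, i')
      = c / η (I m) * wd w η (I i, I i') := by
    simp only [wd]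
    rw [e2, e2]
    ring
  have h4 : ‖wd w η (I i, I i')‖ ≤ C₂ * r * ‖w‖ := (norm_le_pi_norm (wd w η) _).trans h1
  rw [e3, norm_mul, norm_div]
  have h5 : ‖c‖ / ‖η (I m)‖ ≤ 6 * ‖c‖ := by
    rw [div_le_iff₀ hm0]
    nlinarith [norm_nonneg c]
  calc ‖c‖ / ‖η (I m)‖ * ‖wd w η (I i, I i')‖ ≤ 6 * ‖c‖ * (C₂ * r * ‖w‖) :=
        mul_le_mul h5 h4 (norm_nonneg _) (by positivity)
    _ ≤ 6 * ‖c‖ * (C₂ * r * (6 * (‖c‖⁻¹ * ‖sec (J1 I) (sp v)‖))) := by gcongr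
    _ = 36 * C₂ * r * ‖sec (J1 I) (sp v)‖ * (‖c‖ * ‖c‖⁻¹) := by ring
    _ = 36 * C₂ * r * ‖sec (J1 I) (sp v)‖ := by
        rw [mul_inv_cancel₀ hc'.ne', mul_one]

theorem wd_add_l (x y z : ι → k) : wd (x + y) z = wd x z + wd y z := by
  funext p; simp only [wd, Pi.add_apply]; ring

theorem wd_add_r (x y z : ι → k) : wd x (y + z) = wd x y + wd x z := by
  funext p; simp only [wd, Pi.add_apply]; ring

theorem wd_smul_l (c : k) (x y : ι → k) : wd (c • x) y = c • wd x y := by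
  funext p; simp only [wd, Pi.smul_apply, smul_eq_mul]; ring

theorem wd_smul_r (c : k) (x y : ι → k) : wd x (c • y) = c • wd x y := by
  funext p; simp only [wd, Pi.smul_apply, smul_eq_mul]; ring

/-- **C.** counting -/
theorem lemC (hv : v₀ ∈ ch (k := k) I) {r C₁ ρ : ℝ} (hr : 0 < r) (hC₁ : 0 ≤ C₁)
    {η η' : ι → k} {m m' : Fin 3} (hη : ‖η‖ ≤ 1) (hη' : ‖η'‖ ≤ 1)
    (hp : ‖η - prj I v₀ η‖ ≤ C₁ * r) (hp' : ‖η' - prj I v₀ η'‖ ≤ C₁ * r)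
    (hm0 : η (I m) ≠ 0) (hm0' : η' (I m') ≠ 0)
    (hy : ‖wd (fun a => η (I a) / η (I m)) (fun a => η' (I a) / η' (I m'))‖ ≤ ρ) :
    ‖wd η η'‖ ≤ 6 * ρ + 8 * C₁ * r := by
  have hρ : 0 ≤ ρ := (norm_nonneg _).trans hy
  set a : Fin 3 → k := fun i => η (I i) / η (I m) with ha
  set a' : Fin 3 → k := fun i => η' (I i) / η' (I m') with ha'
  set c : k := η (I m) with hc
  set c' : k := η' (I m') with hc'
  have e1 : prj I v₀ η = c • Vf v₀ a := by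
    simp only [Vf, prj, ha, Finset.smul_sum, smul_smul]
    refine Finset.sum_congr rfl fun i _ => ?_
    rw [mul_div_cancel₀ _ hm0]
  have e1' : prj I v₀ η' = c' • Vf v₀ a' := by
    simp only [Vf, prj, ha', Finset.smul_sum, smul_smul]
    refine Finset.sum_congr rfl fun i _ => ?_
    rw [mul_div_cancel₀ _ hm0']
  have hcn : ‖c‖ ≤ 1 := (norm_le_pi_norm η (I m)).trans hη
  have hcn' : ‖c'‖ ≤ 1 := (norm_le_pi_norm η' (I m')).trans hη'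
  have h1 : ‖wd (prj I v₀ η) (prj I v₀ η')‖ ≤ 6 * ρ := by
    rw [e1, e1', wd_smul_l, wd_smul_r, ← om_cr, norm_smul, norm_smul]
    have h2 : ‖cr a a'‖ ≤ ρ := (pi_norm_le_iff_of_nonneg hρ).2 fun i => by
      have hx : ∀ p : Fin 3 × Fin 3, ‖wd a a' p‖ ≤ ρ := fun p => (norm_le_pi_norm _ p).trans hy
      fin_cases i
      · exact hx (1, 2)
      · exact hx (2, 0)
      · exact hx (0, 1)
    have h3 := (om_le hv (cr a a')).trans (mul_le_mul_of_nonneg_left h2 (by norm_num))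
    calc ‖c‖ * (‖c'‖ * ‖om v₀ (cr a a')‖) ≤ 1 * (1 * (6 * ρ)) := by gcongr
      _ = 6 * ρ := by ring
  have e2 : wd η η' = wd (prj I v₀ η) (prj I v₀ η') + wd (prj I v₀ η) (η' - prj I v₀ η') +
      wd (η - prj I v₀ η) η' := by
    funext p
    simp only [wd, Pi.add_apply, Pi.sub_apply]
    ring
  have h4 : ‖prj I v₀ η‖ ≤ 3 := (prj_le hv η).trans (by linarith)
  have h5 := wd_le h4 hp'
  have h6 := wd_le hp hη'
  rw [e2]
  refine norm_add₃_le.trans ?_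
  linarith

/-- the Pluecker vector of the chosen frame -/
noncomputable def pl (x : Gr k ι 2) : ι × ι → k := wd ((fr x).1 0) ((fr x).1 1)

variable [ProperSpace k]

/-- a line has a frame with norms at most one and Pluecker vector of norm at least one; the
Pluecker vectors of two frames are proportional -/
theorem pl_frame (x : Gr k ι 2) : ∃ (v : Fr k ι 2) (d : k), sp v = x ∧ d ≠ 0 ∧
    pl x = d • wd (v.1 0) (v.1 1) ∧ ‖v.1 0‖ ≤ 1 ∧ ‖v.1 1‖ ≤ 1 ∧ 1 ≤ ‖wd (v.1 0) (v.1 1)‖ := by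
  obtain ⟨I', v, hv, hx⟩ := exists_ch x
  obtain ⟨A, hA, h⟩ := (sp_eq v (fr x)).1 (by rw [hx, sp_fr])
  refine ⟨v, A.det, hx, hA, ?_, (pi_norm_le_iff_of_nonneg zero_le_one).2 (hv.2 0),
    (pi_norm_le_iff_of_nonneg zero_le_one).2 (hv.2 1), ?_⟩
  · funext p
    have e0 : ∀ b i, (fr x).1 b i = A b 0 * v.1 0 i + A b 1 * v.1 1 i := fun b i => by
      rw [h]
      simp [cb, Fin.sum_univ_two]
    simp only [pl, wd, Pi.smul_apply, smul_eq_mul, e0, Matrix.det_fin_two]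
    ring
  · have h1 := norm_le_pi_norm (wd (v.1 0) (v.1 1)) (I' 0, I' 1)
    have e : wd (v.1 0) (v.1 1) (I' 0, I' 1) = 1 := by
      simp only [wd, hv.1]
      simp
    rwa [e, norm_one] at h1

/-- **D.** the cone condition in a small cell -/
theorem lemD (hv : v₀ ∈ ch (k := k) I) {A B : Matrix ι ι k} {N r C ε δ : ℝ} {c₀ : k}
    (hc₀ : c₀ ≠ 0) (h : Hw A B N r C)
    (hε0 : 0 ≤ ε) (hε : ε < 1) (hεδ : 24 * cn ι ^ 4 * C ^ 4 * ε ≤ δ * r) {V : Set (ι × ι → k)}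
    (hV : Cone k δ V) {x : Gr k ι 2} (hx : x ∈ GC 2 I v₀ ε) :
    H835.PlF.sq A *ᵥ pl x ∈ V ↔ Tm A c₀ v₀ (sec (J2 I) x) ∈ V := by
  have hN := h.N_pos
  have hr := h.r_pos
  have hC := h.C_pos
  have hcn := cn_nonneg (ι := ι)
  obtain ⟨v, d, rfl, hd, e1, h0, h1, h2⟩ := pl_frame x
  have hinj := GC_inj hε hx
  obtain ⟨c, hc, e2⟩ := sec_eq (J2 I) v (vc_J2_ne hinj)
  have e3 : vc (J2 I) v.1 = cr (fun a => v.1 0 (I a)) (fun a => v.1 1 (I a)) := vc_J2 I v.1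
  have e4 : ∀ b : Fin 2, Vf v₀ (fun a => v.1 b (I a)) = prj I v₀ (v.1 b) := fun b => rfl
  have e5 : Tm A c₀ v₀ (sec (J2 I) (sp v)) =
      (c * c₀⁻¹) • (H835.PlF.sq A *ᵥ wd (prj I v₀ (v.1 0)) (prj I v₀ (v.1 1))) := by
    rw [e2, e3, map_smul, Tm_apply, om_cr, e4, e4, smul_smul]
  have e6 : Tm A c₀ v₀ (sec (J2 I) (sp v)) ∈ V ↔
      H835.PlF.sq A *ᵥ wd (prj I v₀ (v.1 0)) (prj I v₀ (v.1 1)) ∈ V := by
    rw [e5, hV.hom _ _ (mul_ne_zero hc (inv_ne_zero hc₀))]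
  have e7 : H835.PlF.sq A *ᵥ pl (sp v) ∈ V ↔ H835.PlF.sq A *ᵥ wd (v.1 0) (v.1 1) ∈ V := by
    rw [e1, Matrix.mulVec_smul, hV.hom _ _ hd]
  have m0 : ∀ b : Fin 2, v.1 b ∈ (sp v).1 := fun b => by
    fin_cases b
    · exact mem_sp2.2 ⟨1, 0, by simp⟩
    · exact mem_sp2.2 ⟨0, 1, by simp⟩
  have hn : ∀ b : Fin 2, ‖v.1 b‖ ≤ 1 := fun b => by
    fin_cases b
    · exact h0
    · exact h1
  have hp : ∀ b : Fin 2, ‖v.1 b - prj I v₀ (v.1 b)‖ ≤ ε := fun b =>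
    (hx _ (m0 b)).trans (by have := hn b; nlinarith)
  have hq : ∀ b : Fin 2, ‖prj I v₀ (v.1 b)‖ ≤ 3 := fun b =>
    (prj_le hv _).trans (by have := hn b; linarith)
  have hdif : ‖wd (v.1 0) (v.1 1) - wd (prj I v₀ (v.1 0)) (prj I v₀ (v.1 1))‖ ≤ 8 * ε := by
    have e8 : wd (v.1 0) (v.1 1) - wd (prj I v₀ (v.1 0)) (prj I v₀ (v.1 1)) =
        wd (v.1 0 - prj I v₀ (v.1 0)) (v.1 1) +
          wd (prj I v₀ (v.1 0)) (v.1 1 - prj I v₀ (v.1 1)) := by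
      funext p
      simp only [wd, Pi.sub_apply, Pi.add_apply]
      ring
    rw [e8]
    have a1 := wd_le (hp 0) (hn 1)
    have a2 := wd_le (hq 0) (hp 1)
    exact (norm_add_le _ _).trans (by linarith)
  set a := H835.PlF.sq A *ᵥ wd (v.1 0) (v.1 1) with ha
  set b := H835.PlF.sq A *ᵥ wd (prj I v₀ (v.1 0)) (prj I v₀ (v.1 1)) with hb
  have hab : ‖a - b‖ ≤ cn ι ^ 2 * (C ^ 2 * N ^ 2 * (8 * ε)) := by
    rw [ha, hb, ← Matrix.mulVec_sub]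
    exact (h.up_sq _).trans (by gcongr)
  have han : r * N ^ 2 ≤ 3 * cn ι ^ 2 * C ^ 2 * ‖a‖ := by
    have := h.low_sq (alt_wd (v.1 0) (v.1 1))
    have h3 : r * N ^ 2 * 1 ≤ r * N ^ 2 * ‖wd (v.1 0) (v.1 1)‖ := by gcongr
    linarith
  rw [e7, e6]
  refine hV.near a b ?_
  -- `‖a - b‖ ≤ δ ‖a‖`
  have hd0 : 0 ≤ δ := by
    by_contra hd
    have h3 : δ * r < 0 := mul_neg_of_neg_of_pos (not_le.1 hd) hr
    have h4 : 0 ≤ 24 * cn ι ^ 4 * C ^ 4 * ε := by positivity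
    linarith
  have hC1 : 1 ≤ C := h.C_one
  rcases (cn_nonneg (ι := ι)).eq_or_lt with hcn0 | hcnp
  · rw [← hcn0] at hab
    have : ‖a - b‖ ≤ 0 := hab.trans (by simp)
    exact this.trans (mul_nonneg hd0 (norm_nonneg _))
  · have h5 : 8 * cn ι ^ 2 * C ^ 2 * ε * (3 * cn ι ^ 2 * C ^ 2) ≤ δ * r := by
      calc _ = 24 * cn ι ^ 4 * C ^ 4 * ε := by ring
        _ ≤ _ := hεδ
    have h6 : 0 < 3 * cn ι ^ 2 * C ^ 2 := by positivity
    refine hab.trans ?_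
    refine le_of_mul_le_mul_right ?_ h6
    calc cn ι ^ 2 * (C ^ 2 * N ^ 2 * (8 * ε)) * (3 * cn ι ^ 2 * C ^ 2) =
          (8 * cn ι ^ 2 * C ^ 2 * ε * (3 * cn ι ^ 2 * C ^ 2)) * N ^ 2 := by ring
      _ ≤ (δ * r) * N ^ 2 := mul_le_mul_of_nonneg_right h5 (by positivity)
      _ = δ * (r * N ^ 2) := by ring
      _ ≤ δ * (3 * cn ι ^ 2 * C ^ 2 * ‖a‖) := mul_le_mul_of_nonneg_left han hd0
      _ = δ * ‖a‖ * (3 * cn ι ^ 2 * C ^ 2) := by ring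

end slice

/-- a scale -/
theorem exists_scale (k : Type*) [NontriviallyNormedField k] : ∃ κ : ℝ, 1 ≤ κ ∧
    ∀ x : ℝ, 0 < x → ∃ c : k, x ≤ ‖c‖ ∧ ‖c‖ ≤ κ * x := by
  obtain ⟨a, ha⟩ := NormedField.exists_one_lt_norm k
  refine ⟨‖a‖, ha.le, fun x hx => ?_⟩
  obtain ⟨n, hn1, hn2⟩ := exists_mem_Ioc_zpow (y := ‖a‖) hx ha
  refine ⟨a ^ (n + 1), by rw [norm_zpow]; exact hn2, ?_⟩
  rw [norm_zpow, zpow_add_one₀ (by linarith)]
  nlinarith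

end Vale.Agent.P092.H68.LinU
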