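import Vale.Agent.P092.H68.KakU2
import Vale.Agent.P092.H99.Slice

/-!
P092, TEAM N (helper68), second route over ultrametric fields, part 3: **the line estimate for
every dimension from the plane estimate, by slicing** (port of helper99's `KakN`, with thick cones
instead of Lipschitz functions: the model operators are exact in small cells).
-/

set_option linter.all false

open Module Set MeasureTheory
open scoped Matrix

namespace Vale.Agent.P092.H68.LinU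

open Vale.Agent.P092.H100.Gr Vale.Agent.P092.H99 Vale.Agent.P092.H99.Sec
open Vale.Agent.P092.H835.PlF Vale.Agent.P092.H464
open Vale.Agent.P092.H87.N (cn cn_nonneg)
open Vale.Agent.P092.H820 (wd wd_continuous)
open Vale.Agent.P092.H68.KakU (Dat Cone IncU kak_cone_rel)

section aux

variable {k : Type*} [NontriviallyNormedField k] {ι : Type*} [Fintype ι]

theorem ball_closed (η : ι → k) (c : ℝ) :
    IsClosed {y : Gr k ι 1 | ∀ w ∈ y.1, ‖wd w η‖ ≤ c * ‖w‖} := by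
  rw [← sp_quot.isClosed_preimage]
  have e : sp ⁻¹' {y : Gr k ι 1 | ∀ w ∈ y.1, ‖wd w η‖ ≤ c * ‖w‖} = ⋂ a : k, {v : Fr k ι 1 |
      ‖wd (a • v.1 0) η‖ ≤ c * ‖a • v.1 0‖} := by
    ext v
    simp only [mem_preimage, mem_iInter, mem_setOf_eq]
    constructor
    · intro h a
      exact h _ (mem_sp1.2 ⟨a, rfl⟩)
    · intro h w hw
      obtain ⟨a, rfl⟩ := mem_sp1.1 hw
      exact h a
  rw [e]
  refine isClosed_iInter fun a => ?_
  have h1 : Continuous fun v : Fr k ι 1 => a • v.1 0 :=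
    (continuous_const_smul a).comp ((continuous_apply 0).comp fr_val_cont)
  exact isClosed_le (wd_continuous.comp (h1.prodMk continuous_const)).norm
    (continuous_const.mul h1.norm)

theorem cone_meas {F : Type*} [NormedAddCommGroup F] [NormedSpace k F] [MeasurableSpace F]
    [BorelSpace F] {δ : ℝ} (hδ : 0 < δ) {V : Set F} (hV : Cone k δ V) : MeasurableSet V := by
  classical
  have h1 : IsOpen (V \ {0}) := by
    rw [Metric.isOpen_iff]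
    rintro a ⟨ha, ha0⟩
    have ha0' : a ≠ 0 := ha0
    have hn : 0 < ‖a‖ := norm_pos_iff.2 ha0'
    refine ⟨min (δ * ‖a‖) ‖a‖, lt_min (by positivity) hn, fun b hb => ?_⟩
    rw [Metric.mem_ball, dist_eq_norm, norm_sub_rev] at hb
    refine ⟨(hV.near a b (hb.trans_le (min_le_left _ _)).le).1 ha, ?_⟩
    intro h0
    have h0' : b = 0 := h0
    subst h0'
    rw [sub_zero] at hb
    exact absurd hb (not_lt.2 (min_le_right _ _))
  by_cases h0 : (0 : F) ∈ V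
  · have e : V = (V \ {0}) ∪ {0} := by
      ext x
      by_cases hx : x = 0
      · subst hx; simp [h0]
      · simp [hx]
    rw [e]
    exact h1.measurableSet.union (measurableSet_singleton 0)
  · have e : V = V \ {0} := by
      ext x
      by_cases hx : x = 0
      · subst hx; simp [h0]
      · simp [hx]
    rw [e]
    exact h1.measurableSet

theorem meas_pl [ProperSpace k] [MeasurableSpace k] [BorelSpace k] [MeasurableSpace (Gr k ι 2)]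
    [BorelSpace (Gr k ι 2)] {δ : ℝ} (hδ : 0 < δ) {V : Set (ι × ι → k)} (hV : Cone k δ V)
    (A : Matrix ι ι k) : MeasurableSet {x : Gr k ι 2 | H835.PlF.sq A *ᵥ pl x ∈ V} := by
  haveI : SecondCountableTopology k := inferInstance
  letI : MeasurableSpace (Fr k ι 2) := borel _
  haveI : BorelSpace (Fr k ι 2) := ⟨rfl⟩
  haveI : PolishSpace (Fr k ι 2) := by
    have h1 : IsOpen {v : Fin 2 → ι → k | LinearIndependent k v} := by
      have e : {v : Fin 2 → ι → k | LinearIndependent k v} = ⋃ I : Fin 2 → ι, {v | mn I v ≠ 0} := by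
        ext v
        simp only [mem_setOf_eq, mem_iUnion]
        exact li_iff
      rw [e]
      exact isOpen_iUnion fun I => (mn_cont I).isOpen_preimage _ isOpen_compl_singleton
    exact h1.polishSpace
  have h1 : Measurable (sp : Fr k ι 2 → Gr k ι 2) := sp_cont.measurable
  rw [measurableSet_setOf, ← h1.measurable_comp_iff_of_surjective sp_surj]
  have e : ((fun x : Gr k ι 2 => H835.PlF.sq A *ᵥ pl x ∈ V) ∘ sp) =
      fun v : Fr k ι 2 => H835.PlF.sq A *ᵥ wd (v.1 0) (v.1 1) ∈ V := by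
    funext v
    obtain ⟨D, hD, h⟩ := (sp_eq v (fr (sp v))).1 (sp_fr _).symm
    have e0 : ∀ b i, (fr (sp v)).1 b i = D b 0 * v.1 0 i + D b 1 * v.1 1 i := fun b i => by
      rw [h]
      simp [cb, Fin.sum_univ_two]
    have e1 : pl (sp v) = D.det • wd (v.1 0) (v.1 1) := by
      funext p
      simp only [pl, wd, Pi.smul_apply, smul_eq_mul, e0, Matrix.det_fin_two]
      ring
    change (H835.PlF.sq A *ᵥ pl (sp v) ∈ V) = _
    rw [e1, Matrix.mulVec_smul]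
    exact propext (hV.hom _ _ hD)
  rw [e, ← measurableSet_setOf]
  have h2 : Continuous fun v : Fr k ι 2 => H835.PlF.sq A *ᵥ wd (v.1 0) (v.1 1) := by
    refine Continuous.matrix_mulVec continuous_const ?_
    exact wd_continuous.comp (((continuous_apply 0).comp fr_val_cont).prodMk
      ((continuous_apply 1).comp fr_val_cont))
  exact h2.measurable (cone_meas hδ hV)

/-- insertion of the cell -/
theorem ins_pt {K : Type*} [NormedAddCommGroup K] [InnerProductSpace ℂ K] [CompleteSpace K]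
    {X Z : Type*} [MeasurableSpace X] [MeasurableSpace Z] {P : Set X → (K →L[ℂ] K)}
    {Q : Set Z → (K →L[ℂ] K)} {J : X → Z → Prop} (hP : Pv P) (hPQ : CI J P Q) {C : Set Z}
    (hC : MeasurableSet C) {N : Set X} (hN : MeasurableSet N)
    (hNC : ∀ x, x ∉ N → ∀ z ∈ C, ¬ J x z) (ζ : K) : Q C ζ = P N (Q C ζ) := by
  have h0 : P Nᶜ * Q C = 0 := hPQ.inc _ _ hN.compl hC fun x hx z hz => hNC x hx z hz
  rw [hP.compl N hN, sub_mul, one_mul, sub_eq_zero] at h0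
  exact congrArg (fun T : K →L[ℂ] K => T ζ) h0

end aux

section slices

variable {k : Type} [NontriviallyNormedField k] [IsUltrametricDist k] [ProperSpace k]
  [MeasurableSpace k] [BorelSpace k] {ι : Type} [Fintype ι]
  [MeasurableSpace (Gr k ι 1)] [BorelSpace (Gr k ι 1)]
  [MeasurableSpace (Gr k ι 2)] [BorelSpace (Gr k ι 2)] [MeasurableSpace (Gr k ι 3)]
  [BorelSpace (Gr k ι 3)]

/-- **one slice** -/
theorem one_slice {C κ δ : ℝ} (hC : 1 ≤ C) (hκ : 0 ≤ κ) (hδ : 0 < δ) (hδ1 : δ ≤ 1) (M : ℕ) :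
    ∃ D : ℝ, 0 ≤ D ∧ ∀ (K : Type) [NormedAddCommGroup K] [InnerProductSpace ℂ K]
      [CompleteSpace K] (Pb Pc : Set (Gr k ι 2) → (K →L[ℂ] K))
      (Ll Lm : Set (Gr k ι 1) → (K →L[ℂ] K)) (Q : Set (Gr k ι 3) → (K →L[ℂ] K)),
      Pv Pb → Pv Pc → Pv Ll → Pv Lm → Pv Q →
      CI (fun x y => y.1 ≤ x.1) Pb Ll → CI (fun x y => y.1 ≤ x.1) Pc Ll →
      CI (fun x y => y.1 ≤ x.1) Pc Lm →
      CI (fun x z => x.1 ≤ z.1) Pb Q → CI (fun x z => x.1 ≤ z.1) Pc Q →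
      CI (fun y z => y.1 ≤ z.1) Ll Q → CI (fun y z => y.1 ≤ z.1) Lm Q →
      ∀ (I : Fin 3 → ι) (v₀ : Fin 3 → ι → k) (ε : ℝ) (Cc : Set (Gr k ι 3)),
      v₀ ∈ ch (k := k) I → ε ≤ 1 / 2 → MeasurableSet Cc → Cc ⊆ GC 3 I v₀ ε →
      ∀ (G : Type) (S : Finset G) (A B : G → Matrix ι ι k) (N : G → ℝ) (c : G → k)
        (η : G → ι → k) (V : G → Set (ι × ι → k)) (mm : G → Fin 3) (r : ℝ),
      0 < r → r ≤ 1 → (∀ g ∈ S, Hw (A g) (B g) (N g) r C) →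
      (∀ g ∈ S, N g ^ 2 ≤ ‖c g‖ ∧ ‖c g‖ ≤ κ * N g ^ 2) →
      (∀ g ∈ S, ‖A g *ᵥ η g‖ ≤ C * (r * N g) * ‖η g‖) → (∀ g ∈ S, ‖η g‖ = 1) →
      (∀ g ∈ S, ‖η g - prj I v₀ (η g)‖ ≤ (4 * C + 1) * r ∧
        (∀ a, ‖η g (I a)‖ ≤ ‖η g (I (mm g))‖) ∧ 1 / 6 ≤ ‖η g (I (mm g))‖) →
      (∀ g ∈ S, ∀ t ⊆ S, (∀ h ∈ t, ‖wd (η h) (η g)‖ ≤
        (6 * (Cs (cn ι) C κ ^ 2 / δ) + 8 * (4 * C + 1)) * r) → t.card ≤ M) →
      (∀ g ∈ S, Cone k δ (V g)) →
      ∀ ξ : K, ∑ g ∈ S, ‖Lm ({y | ∀ w ∈ y.1, ‖wd w (η g)‖ ≤ C * r * ‖w‖} ∩ GC 1 I v₀ ε)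
        (Pb {x | Tm (A g) (c g) v₀ (sec (J2 I) x) ∈ V g} (Q Cc ξ))‖ ^ 2 ≤
          D * (1 + Real.log (1 / r)) ^ 2 * ‖Q Cc ξ‖ ^ 2 := by
  classical
  have hn0 : 0 ≤ cn ι := cn_nonneg (ι := ι)
  have hC0 : 0 < C := by linarith
  obtain ⟨b1, b2, b3, b4, b5, b6⟩ := Cs_ge hn0 hC0 hκ
  have hCs1 : 1 ≤ Cs (cn ι) C κ := hC.trans b1
  obtain ⟨D, hD, key⟩ := kak_cone_rel.{0, 0} (k := k) hCs1 hδ hδ1 M
  refine ⟨D, hD, ?_⟩
  intro K _ _ _ Pb Pc Ll Lm Q hb hc hl hm hQ hbl hcl hcm hbQ hcQ hlQ hmQ I v₀ ε Cc hv₀ hε2 hCm hCs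
    G S A B N c η V mm r hr hr1 hHw hsc hAη hηn hS1 hcnt hV ξ
  have hGm : MeasurableSet (GC (k := k) (ι := ι) 2 I v₀ ε) := (GC_closed _ _ _ _).measurableSet
  have hGm1 : MeasurableSet (GC (k := k) (ι := ι) 1 I v₀ ε) := (GC_closed _ _ _ _).measurableSet
  have hNC2 : ∀ x : Gr k ι 2, x ∉ GC 2 I v₀ ε → ∀ z ∈ Cc, ¬ x.1 ≤ z.1 :=
    fun x hx z hz hxz => hx (GC_sub hxz (hCs hz))
  have hinc : ∀ x ∈ GC (k := k) (ι := ι) 2 I v₀ ε, ∀ y : Gr k ι 1, y.1 ≤ x.1 →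
      IncU (sec (J2 I)) (sec (J1 I)) x y := fun x hx y hyx =>
    inc_exact (GC_inj (by linarith) hx) hyx
  have hne : ∀ g ∈ S, η g (I (mm g)) ≠ 0 := by
    intro g hg h0
    have := (hS1 g hg).2.2
    rw [h0, norm_zero] at this
    norm_num at this
  set η' : G → Fin 3 → k := fun g => if g ∈ S then (fun a => η g (I a) / η g (I (mm g))) else
    Pi.single 0 1 with hη'
  have hη'S : ∀ g ∈ S, η' g = fun a => η g (I a) / η g (I (mm g)) := fun g hg => by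
    simp only [hη', if_pos hg]
  have hη'1 : ∀ g, ‖η' g‖ = 1 := by
    intro g
    by_cases hg : g ∈ S
    · rw [hη'S g hg]
      refine le_antisymm ((pi_norm_le_iff_of_nonneg zero_le_one).2 fun a => ?_) ?_
      · rw [norm_div]
        exact div_le_one_of_le₀ ((hS1 g hg).2.1 a) (norm_nonneg _)
      · have h1 := norm_le_pi_norm (fun a => η g (I a) / η g (I (mm g))) (mm g)
        rwa [div_self (hne g hg), norm_one] at h1
    · simp only [hη', if_neg hg]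
      refine le_antisymm ((pi_norm_le_iff_of_nonneg zero_le_one).2 fun a => ?_) ?_
      · by_cases h : a = 0
        · subst h; simp
        · simp [Pi.single_apply, h]
      · have h1 := norm_le_pi_norm (Pi.single 0 1 : Fin 3 → k) 0
        rwa [Pi.single_eq_same, norm_one] at h1
  refine key K (Gr k ι 2) (Gr k ι 1) (ι × ι → k) (sec (J2 I)) (sec (J1 I))
    (meas_sec _) (meas_sec _) (sec_ne _) (sec_ne _) Pb Pc Ll Lm hb hc hl hm (Q Cc) (hQ.idem hCm)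
    (hQ.sa _ hCm) (ce_of hbQ hCm) (ce_of hcQ hCm) (ce_of hlQ hCm) (ce_of hmQ hCm)
    (rel_ci hb hbl hbQ hCm hGm hNC2 hinc)
    (rel_ci hc hcl hcQ hCm hGm hNC2 hinc)
    (rel_ci hc hcm hcQ hCm hGm hNC2 hinc) G S
    (fun g => Tm (A g) (c g) v₀) η'
    (fun g => Tm (A g) (c g) v₀ (Pi.single (mm g) 1)) V r hr hr1 hη'1 ?_ ?_ hV
    (fun g => {y | ∀ w ∈ y.1, ‖wd w (η g)‖ ≤ C * r * ‖w‖} ∩ GC 1 I v₀ ε)
    (fun g _ => (ball_closed (η g) (C * r)).measurableSet.inter hGm1) ?_ ξ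
  · intro g hg t ht hh
    refine hcnt g hg t ht fun h hht => ?_
    have h1 := hh h hht
    have hhS := ht hht
    rw [hη'S g hg, hη'S h hhS] at h1
    have h2 := lemC hv₀ hr (by positivity) (hηn h hhS).le (hηn g hg).le (hS1 h hhS).1
      (hS1 g hg).1 (hne h hhS) (hne g hg) h1
    refine h2.trans (le_of_eq ?_)
    ring
  · intro g hg
    rw [hη'S g hg]
    exact dat_of (hHw g hg) hv₀ (hsc g hg).1 (hsc g hg).2 (hAη g hg) (hηn g hg).le (hS1 g hg).1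
      (hS1 g hg).2.2
  · rintro g hg y ⟨hy1, hy2⟩
    rw [hη'S g hg]
    refine (lemB hv₀ hr hC0.le hε2 (hS1 g hg).2.2 hy2 hy1).trans ?_
    refine mul_le_mul_of_nonneg_right (mul_le_mul_of_nonneg_right ?_ hr.le) (norm_nonneg _)
    rw [le_div_iff₀ hδ]
    nlinarith

/-- **the line estimate in dimension `n`** -/
theorem kak_n {C δ : ℝ} (hC : 1 ≤ C) (hδ : 0 < δ) (hδ1 : δ ≤ 1) :
    ∃ D₁ : ℝ, 0 ≤ D₁ ∧ ∀ M : ℕ, ∃ D₂ : ℝ, 0 ≤ D₂ ∧
      ∀ (K : Type) [NormedAddCommGroup K] [InnerProductSpace ℂ K]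
      [CompleteSpace K] (Pb Pc : Set (Gr k ι 2) → (K →L[ℂ] K))
      (Ll Lm : Set (Gr k ι 1) → (K →L[ℂ] K)) (Q : Set (Gr k ι 3) → (K →L[ℂ] K)),
      Pv Pb → Pv Pc → Pv Ll → Pv Lm → Pv Q →
      CI (fun x y => y.1 ≤ x.1) Pb Ll → CI (fun x y => y.1 ≤ x.1) Pc Ll →
      CI (fun x y => y.1 ≤ x.1) Pc Lm →
      CI (fun x z => x.1 ≤ z.1) Pb Q → CI (fun x z => x.1 ≤ z.1) Pc Q →
      CI (fun y z => y.1 ≤ z.1) Ll Q → CI (fun y z => y.1 ≤ z.1) Lm Q →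
      ∀ (G : Type) (S : Finset G) (A B : G → Matrix ι ι k) (N : G → ℝ)
        (η : G → ι → k) (V : G → Set (ι × ι → k)) (r : ℝ),
      0 < r → r ≤ 1 → (∀ g ∈ S, Hw (A g) (B g) (N g) r C) →
      (∀ g ∈ S, ‖A g *ᵥ η g‖ ≤ C * (r * N g) * ‖η g‖) → (∀ g ∈ S, ‖η g‖ = 1) →
      (∀ g ∈ S, ∀ t ⊆ S, (∀ h ∈ t, ‖wd (η h) (η g)‖ ≤ D₁ * r) → t.card ≤ M) →
      (∀ g ∈ S, Cone k δ (V g)) →
      ∀ ξ : K, ∑ g ∈ S, ‖Lm {y | ∀ w ∈ y.1, ‖wd w (η g)‖ ≤ C * r * ‖w‖}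
        (Pb {x | H835.PlF.sq (A g) *ᵥ pl x ∈ V g} ξ)‖ ^ 2 ≤
          D₂ * (1 + Real.log (1 / r)) ^ 2 * ‖ξ‖ ^ 2 := by
  classical
  have hn0 : 0 ≤ cn ι := cn_nonneg (ι := ι)
  have hC0 : 0 < C := by linarith
  obtain ⟨κ, hκ1, hκ⟩ := exists_scale k
  have hκ0 : 0 ≤ κ := by linarith
  obtain ⟨b1, b2, b3, b4, b5, b6⟩ := Cs_ge hn0 hC0 hκ0
  set C₁ : ℝ := 4 * C + 1 with hC₁
  have hC₁0 : 0 < C₁ := by positivity
  refine ⟨6 * (Cs (cn ι) C κ ^ 2 / δ) + 8 * C₁, by positivity, fun M => ?_⟩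
  obtain ⟨D, hD, key⟩ := one_slice (k := k) (ι := ι) hC hκ0 hδ hδ1 M
  refine ⟨D + M, by positivity, ?_⟩
  intro K _ _ _ Pb Pc Ll Lm Q hb hc hl hm hQ hbl hcl hcm hbQ hcQ hlQ hmQ G S A B N η V r hr hr1
    hHw hAη hηn hcnt hV ξ
  have hlog : 0 ≤ Real.log (1 / r) := Real.log_nonneg (by rw [le_div_iff₀ hr]; linarith)
  have hL1 : 1 ≤ (1 + Real.log (1 / r)) ^ 2 := one_le_pow₀ (by linarith)
  set L : ℝ := (1 + Real.log (1 / r)) ^ 2 with hL
  have hBm : ∀ g, MeasurableSet {y : Gr k ι 1 | ∀ w ∈ y.1, ‖wd w (η g)‖ ≤ C * r * ‖w‖} :=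
    fun g => (ball_closed (η g) (C * r)).measurableSet
  have hPm : ∀ g ∈ S, MeasurableSet {x : Gr k ι 2 | H835.PlF.sq (A g) *ᵥ pl x ∈ V g} :=
    fun g hg => meas_pl hδ (hV g hg) (A g)
  rcases S.eq_empty_or_nonempty with hS | ⟨g₀, hg₀⟩
  · subst hS
    simp only [Finset.sum_empty]
    positivity
  by_cases hsm : C₁ * r ≤ 1 / 2
  swap
  · -- `r` is not small
    rw [not_le] at hsm
    have hcard : (S.card : ℝ) ≤ M := by
      have h1 := hcnt g₀ hg₀ S le_rfl fun h hh => by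
        have h3 := wd_le (hηn h hh).le (hηn g₀ hg₀).le
        have h4 : 0 ≤ 6 * (Cs (cn ι) C κ ^ 2 / δ) * r := by positivity
        nlinarith
      exact_mod_cast h1
    calc ∑ g ∈ S, ‖Lm {y | ∀ w ∈ y.1, ‖wd w (η g)‖ ≤ C * r * ‖w‖}
          (Pb {x | H835.PlF.sq (A g) *ᵥ pl x ∈ V g} ξ)‖ ^ 2
        ≤ ∑ _g ∈ S, ‖ξ‖ ^ 2 := by
          refine Finset.sum_le_sum fun g hg => ?_
          refine pow_le_pow_left₀ (norm_nonneg _) ?_ 2
          exact (hm.norm_le (hBm g) _).trans (hb.norm_le (hPm g hg) _)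
      _ = S.card * ‖ξ‖ ^ 2 := by rw [Finset.sum_const, nsmul_eq_mul]
      _ ≤ M * ‖ξ‖ ^ 2 := mul_le_mul_of_nonneg_right hcard (by positivity)
      _ ≤ (D + M) * L * ‖ξ‖ ^ 2 := by
          refine mul_le_mul_of_nonneg_right ?_ (by positivity)
          have h1 : (M : ℝ) * 1 ≤ M * L := mul_le_mul_of_nonneg_left hL1 (by positivity)
          have h2 : 0 ≤ D * L := by positivity
          nlinarith
  · -- the slices
    set Kc : ℝ := 24 * cn ι ^ 4 * C ^ 4 with hKc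
    have hKc0 : 0 ≤ Kc := by positivity
    set ε : ℝ := min (min (1 / 2) r) (δ * r / (Kc + 1)) with hε
    have hε0 : 0 < ε := lt_min (lt_min (by norm_num) hr) (by positivity)
    have hε2 : ε ≤ 1 / 2 := (min_le_left _ _).trans (min_le_left _ _)
    have hεr : ε ≤ r := (min_le_left _ _).trans (min_le_right _ _)
    have hεδ : Kc * ε ≤ δ * r := by
      have h1 : ε ≤ δ * r / (Kc + 1) := min_le_right _ _
      rw [le_div_iff₀ (by positivity)] at h1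
      nlinarith
    obtain ⟨m, I, v₀, Cc, hv₀, hCm, hCd, hCu, hCs⟩ := exists_cells (k := k) (ι := ι) hε0
    have hdec : Dec (Finset.univ : Finset (Fin m)) fun i => Q (Cc i) :=
      dec_of hQ Finset.univ Cc (fun i _ => hCm i) (fun i _ j _ hij => hCd i j hij)
        (fun z => by obtain ⟨i, hi⟩ := hCu z; exact ⟨i, Finset.mem_univ i, hi⟩)
    -- the data of a slice
    have hmm : ∀ i g, ∃ mk : Fin 3, g ∈ S → (∃ y ∈ GC (k := k) (ι := ι) 1 (I i) (v₀ i) ε,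
        ∀ w ∈ y.1, ‖wd w (η g)‖ ≤ C * r * ‖w‖) → ‖η g - prj (I i) (v₀ i) (η g)‖ ≤ C₁ * r ∧
        (∀ a, ‖η g (I i a)‖ ≤ ‖η g (I i mk)‖) ∧ 1 / 6 ≤ ‖η g (I i mk)‖ := by
      intro i g
      by_cases hk : g ∈ S ∧ ∃ y ∈ GC (k := k) (ι := ι) 1 (I i) (v₀ i) ε,
          ∀ w ∈ y.1, ‖wd w (η g)‖ ≤ C * r * ‖w‖
      · obtain ⟨hkS, y, hy, hyη⟩ := hk
        obtain ⟨v, rfl⟩ := sp_surj y
        have hw : v.1 0 ∈ (sp v).1 := mem_sp1.2 ⟨1, (one_smul _ _).symm⟩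
        obtain ⟨h1, mk, h2, h3⟩ := lemA (hv₀ i) hr hC0.le hεr hsm (hηn g hkS)
          (v.2.ne_zero 0) (hy _ hw) (hyη _ hw)
        exact ⟨mk, fun _ _ => ⟨h1, h2, h3⟩⟩
      · exact ⟨0, fun h1 h2 => absurd ⟨h1, h2⟩ hk⟩
    choose mm hmm using hmm
    have hcs : ∀ g, ∃ c : k, g ∈ S → N g ^ 2 ≤ ‖c‖ ∧ ‖c‖ ≤ κ * N g ^ 2 := by
      intro g
      by_cases hg : g ∈ S
      · have hN := (hHw g hg).N_pos
        obtain ⟨c, h1, h2⟩ := hκ (N g ^ 2) (by positivity)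
        exact ⟨c, fun _ => ⟨h1, h2⟩⟩
      · exact ⟨0, fun h => absurd h hg⟩
    choose c hc' using hcs
    have hRcomm : ∀ g ∈ S, ∀ i ∈ (Finset.univ : Finset (Fin m)),
        Q (Cc i) * (Lm {y | ∀ w ∈ y.1, ‖wd w (η g)‖ ≤ C * r * ‖w‖} *
          Pb {x | H835.PlF.sq (A g) *ᵥ pl x ∈ V g}) =
        Lm {y | ∀ w ∈ y.1, ‖wd w (η g)‖ ≤ C * r * ‖w‖} *
          Pb {x | H835.PlF.sq (A g) *ᵥ pl x ∈ V g} * Q (Cc i) := by
      intro g hg i _
      have h1 := hmQ.comm _ _ (hBm g) (hCm i)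
      have h2 := hbQ.comm _ _ (hPm g hg) (hCm i)
      rw [← mul_assoc, ← h1, mul_assoc, ← h2, mul_assoc]
    have hfin := slice_sum hdec S (fun g => Lm {y | ∀ w ∈ y.1, ‖wd w (η g)‖ ≤ C * r * ‖w‖} *
          Pb {x | H835.PlF.sq (A g) *ᵥ pl x ∈ V g}) hRcomm (M := D * L) ?_ ξ
    · refine hfin.trans (mul_le_mul_of_nonneg_right ?_ (by positivity))
      have : (0 : ℝ) ≤ M * L := by positivity
      nlinarith
    intro i _ ξ
    set Si : Finset G := S.filter fun g =>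
      ∃ y ∈ GC (k := k) (ι := ι) 1 (I i) (v₀ i) ε, ∀ w ∈ y.1, ‖wd w (η g)‖ ≤ C * r * ‖w‖ with hSi
    have hGm : MeasurableSet (GC (k := k) (ι := ι) 2 (I i) (v₀ i) ε) :=
      (GC_closed _ _ _ _).measurableSet
    have hGm1 : MeasurableSet (GC (k := k) (ι := ι) 1 (I i) (v₀ i) ε) :=
      (GC_closed _ _ _ _).measurableSet
    have hNC2 : ∀ x : Gr k ι 2, x ∉ GC 2 (I i) (v₀ i) ε → ∀ z ∈ Cc i, ¬ x.1 ≤ z.1 :=
      fun x hx z hz hxz => hx (GC_sub hxz (hCs i hz))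
    have hNC1 : ∀ y : Gr k ι 1, y ∉ GC 1 (I i) (v₀ i) ε → ∀ z ∈ Cc i, ¬ y.1 ≤ z.1 :=
      fun y hy z hz hyz => hy (GC_sub hyz (hCs i hz))
    -- the operator in the slice
    have hLins : ∀ g, ∀ ζ, Lm {y | ∀ w ∈ y.1, ‖wd w (η g)‖ ≤ C * r * ‖w‖} (Q (Cc i) ζ) =
        Lm ({y | ∀ w ∈ y.1, ‖wd w (η g)‖ ≤ C * r * ‖w‖} ∩ GC 1 (I i) (v₀ i) ε)
          (Q (Cc i) ζ) := by
      intro g ζ
      rw [hm.inter _ _ (hBm g) hGm1]
      change _ = Lm {y | ∀ w ∈ y.1, ‖wd w (η g)‖ ≤ C * r * ‖w‖}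
        (Lm (GC 1 (I i) (v₀ i) ε) (Q (Cc i) ζ))
      rw [← ins_pt hm hmQ (hCm i) hGm1 hNC1 ζ]
    have hT : ∀ g ∈ S, MeasurableSet
        {x : Gr k ι 2 | Tm (A g) (c g) (v₀ i) (sec (J2 (I i)) x) ∈ V g} := by
      intro g hg
      haveI : SecondCountableTopology k := inferInstance
      have h1 : Continuous (Tm (A g) (c g) (v₀ i)) := LinearMap.continuous_of_finiteDimensional _
      exact (h1.measurable.comp (meas_sec _)) (cone_meas hδ (hV g hg))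
    have hWeq : ∀ g ∈ S, ∀ ζ, Pb {x | H835.PlF.sq (A g) *ᵥ pl x ∈ V g} (Q (Cc i) ζ) =
        Pb {x | Tm (A g) (c g) (v₀ i) (sec (J2 (I i)) x) ∈ V g} (Q (Cc i) ζ) := by
      intro g hg ζ
      have hN := (hHw g hg).N_pos
      have hc0 : c g ≠ 0 := by
        intro h0
        have := (hc' g hg).1
        rw [h0, norm_zero] at this
        have h1 : 0 < N g ^ 2 := by positivity
        linarith
      have e1 := ins_pt hb hbQ (hCm i) hGm hNC2 ζ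
      have e2 : ∀ {U : Set (Gr k ι 2)}, MeasurableSet U → Pb U (Q (Cc i) ζ) =
          Pb (U ∩ GC 2 (I i) (v₀ i) ε) (Q (Cc i) ζ) := by
        intro U hU
        rw [hb.inter _ _ hU hGm]
        change _ = Pb U (Pb (GC 2 (I i) (v₀ i) ε) (Q (Cc i) ζ))
        rw [← e1]
      rw [e2 (hPm g hg), e2 (hT g hg)]
      congr 2
      ext x
      constructor
      · rintro ⟨h1, h2⟩
        exact ⟨(lemD (hv₀ i) hc0 (hHw g hg) hε0.le (by linarith) hεδ (hV g hg) h2).1 h1, h2⟩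
      · rintro ⟨h1, h2⟩
        exact ⟨(lemD (hv₀ i) hc0 (hHw g hg) hε0.le (by linarith) hεδ (hV g hg) h2).2 h1, h2⟩
    have hop : ∀ g ∈ S, (Lm {y | ∀ w ∈ y.1, ‖wd w (η g)‖ ≤ C * r * ‖w‖} *
          Pb {x | H835.PlF.sq (A g) *ᵥ pl x ∈ V g}) (Q (Cc i) ξ) =
        Lm ({y | ∀ w ∈ y.1, ‖wd w (η g)‖ ≤ C * r * ‖w‖} ∩ GC 1 (I i) (v₀ i) ε)
          (Pb {x | Tm (A g) (c g) (v₀ i) (sec (J2 (I i)) x) ∈ V g} (Q (Cc i) ξ)) := by
      intro g hg
      change Lm _ (Pb _ (Q (Cc i) ξ)) = _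
      rw [hWeq g hg ξ]
      have e3 : Pb {x | Tm (A g) (c g) (v₀ i) (sec (J2 (I i)) x) ∈ V g} (Q (Cc i) ξ) =
          Q (Cc i) (Pb {x | Tm (A g) (c g) (v₀ i) (sec (J2 (I i)) x) ∈ V g} ξ) :=
        congrArg (fun T : K →L[ℂ] K => T ξ) (hbQ.comm _ _ (hT g hg) (hCm i))
      rw [e3, hLins g]
    have h1 := key K Pb Pc Ll Lm Q hb hc hl hm hQ hbl hcl hcm hbQ hcQ hlQ hmQ (I i) (v₀ i) ε (Cc i)
      (hv₀ i) hε2 (hCm i) (hCs i) G Si A B N c η V (mm i) r hr hr1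
      (fun g hg => hHw g (Finset.mem_filter.1 hg).1)
      (fun g hg => hc' g (Finset.mem_filter.1 hg).1)
      (fun g hg => hAη g (Finset.mem_filter.1 hg).1)
      (fun g hg => hηn g (Finset.mem_filter.1 hg).1)
      (fun g hg => hmm i g (Finset.mem_filter.1 hg).1 (Finset.mem_filter.1 hg).2)
      (fun g hg t ht hh => hcnt g (Finset.mem_filter.1 hg).1 t
        (ht.trans (Finset.filter_subset _ _)) hh)
      (fun g hg => hV g (Finset.mem_filter.1 hg).1) ξ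
    refine le_trans (le_of_eq ?_) h1
    rw [← Finset.sum_subset (Finset.filter_subset _ _ : Si ⊆ S)]
    · refine Finset.sum_congr rfl fun g hg => ?_
      rw [hop g (Finset.mem_filter.1 hg).1]
    · intro g hg hgn
      have h0 : ({y | ∀ w ∈ y.1, ‖wd w (η g)‖ ≤ C * r * ‖w‖} ∩ GC 1 (I i) (v₀ i) ε :
          Set (Gr k ι 1)) = ∅ :=
        Set.eq_empty_of_forall_notMem fun y hy =>
          hgn (Finset.mem_filter.2 ⟨hg, y, hy.2, hy.1⟩)
      rw [hop g hg, h0, hm.empty]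
      simp

end slices

end Vale.Agent.P092.H68.LinU
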