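import Vale.Agent.P092.H68.KakU3
import Vale.Agent.P092.H68.Nj3K
import Vale.Agent.P092.H914.NJB
import Vale.Agent.P092.H890.Dens
import Vale.Agent.P092.H696.Dns

/-!
P092, TEAM N (helper68), second route over ultrametric fields, part 4: `NJB3Stmt k` and
`KeyStmt k μ` for every non-archimedean local field, every `n ≥ 3` (slicing along the plane `b + l`;
the assembly is helper914's and helper99's).
-/

set_option linter.all false

open scoped InnerProductSpace ENNReal LinearAlgebra.Projectivization ZeroAtInfty Matrix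
open Filter Topology ContinuousLinearMap MeasureTheory TopologicalSpace

namespace Vale.Agent.P092.H68.Nj3U

open Vale.Agent.P092.SN
open Vale.Agent.P092.RC (Cm TRN Moore GG PG YY y0 ct)
open Vale.Agent.P092.H100.Gr (Gr incG incG_closed)
open Vale.Agent.P092.H644.Gr3 (p1 hyp p1H p1_le_hyp p1_cont)
open Vale.Agent.P092.H87.N (nmn Attn taun yy cl NWn KR nwn_sh one_le_KR cn)
open Vale.Agent.P092.H464 (Pv CI)
open Vale.Agent.P092.H835.PlF (Alt w3 hw_of_NWn Hw)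
open Vale.Agent.P092.H835.Pl (nw_of_NWn)
open Vale.Agent.P092.H835.NF (rr nfsl taun_inv_tr)
open Vale.Agent.P092.H835.PlGr (plk plH plH_surj plk_cont plk_smul rep_alt mem_iff lam2 plk_sp)
open Vale.Agent.P092.H820 (pj wd)
open Vale.Agent.P092.H914
open Vale.Agent.P092.H68.Nj3
open Vale.Agent.P092.H68.KakU (Cone)

section dens

/-- indicator functions of thick cones -/
def ID (k : Type) [NontriviallyNormedField k] (β : Type) [Fintype β] :
    Set C(ℙ k (β → k), ℂ) :=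
  {G | ∃ (V : Set (β → k)) (δ : ℝ), 0 < δ ∧ δ ≤ 1 ∧ Cone k δ V ∧
    ∀ v hv, (v ∈ V → G (Projectivization.mk k v hv) = 1) ∧
      (v ∉ V → G (Projectivization.mk k v hv) = 0)}

variable {k : Type} [NontriviallyNormedField k] [ProperSpace k] [IsUltrametricDist k]

/-- the indicator functions of thick cones span a dense subspace -/
theorem id_dense (β : Type) [Fintype β] :
    closure (Submodule.span ℂ (ID k β) : Set C(ℙ k (β → k), ℂ)) = Set.univ := by
  classical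
  refine ((H890.dense_lc (k := k) (m := β)).mono fun f hf => ?_).closure_eq
  have hf' : IsLocallyConstant f := hf
  have hfin : (Set.range f).Finite := hf'.range_finite
  let χ : ℂ → C(ℙ k (β → k), ℂ) := fun c =>
    ⟨fun x => if f x = c then 1 else 0, (hf'.comp fun z => if z = c then (1 : ℂ) else 0).continuous⟩
  have hχ : ∀ c, χ c ∈ ID k β := by
    intro c
    have hlc : IsLocallyConstant f := hf'
    obtain ⟨ε, hε, hev⟩ := H696.ev_lc hlc
    refine ⟨{v | H890.ev f v = c}, min ε 1, lt_min hε one_pos, min_le_right _ _, ⟨?_, ?_⟩, ?_⟩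
    · intro a b hab
      have := hev a b (hab.trans (mul_le_mul_of_nonneg_right (min_le_left _ _) (norm_nonneg _)))
      change H890.ev f a = c ↔ H890.ev f b = c
      rw [this]
    · intro c' a hc'
      change H890.ev f (c' • a) = c ↔ H890.ev f a = c
      rw [H890.ev_scale f hc']
    · intro v hv
      have e : H890.ev f v = f (Projectivization.mk k v hv) := H890.ev_ne f hv
      constructor
      · intro h
        change (if f (Projectivization.mk k v hv) = c then (1 : ℂ) else 0) = 1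
        rw [if_pos (e.symm.trans h)]
      · intro h
        change (if f (Projectivization.mk k v hv) = c then (1 : ℂ) else 0) = 0
        rw [if_neg fun h' => h (e.trans h')]
  have e : f = ∑ c ∈ hfin.toFinset, c • χ c := by
    ext x
    rw [ContinuousMap.sum_apply, Finset.sum_eq_single (f x)]
    · change f x = f x • (if f x = f x then (1 : ℂ) else 0)
      rw [if_pos rfl, smul_eq_mul, mul_one]
    · intro c _ hc
      change c • (if f x = c then (1 : ℂ) else 0) = 0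
      rw [if_neg fun h => hc h.symm, smul_zero]
    · intro h
      exact absurd (hfin.mem_toFinset.2 ⟨x, rfl⟩) h
  rw [e]
  exact Submodule.sum_mem _ fun c _ => Submodule.smul_mem _ _ (Submodule.subset_span (hχ c))

theorem dense_imageU {N : ℕ} :
    closure (Submodule.span ℂ (plH '' ID k (Fin (N + 1) × Fin (N + 1))) :
      Set (CG k N 2)) = Set.univ := by
  have h1 : ((plH : C(ℙ k (Fin (N + 1) × Fin (N + 1) → k), ℂ) →⋆ₐ[ℂ] CG k N 2) ''
      (Submodule.span ℂ (ID k (Fin (N + 1) × Fin (N + 1))) : Set _)) ⊆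
      (Submodule.span ℂ (plH '' ID k (Fin (N + 1) × Fin (N + 1))) : Set (CG k N 2)) := by
    rintro _ ⟨F, hF, rfl⟩
    have h2 := Submodule.mem_map_of_mem
      (f := ((plH : C(ℙ k (Fin (N + 1) × Fin (N + 1) → k), ℂ) →⋆ₐ[ℂ] CG k N 2) :
        C(ℙ k (Fin (N + 1) × Fin (N + 1) → k), ℂ) →ₗ[ℂ] CG k N 2)) hF
    rw [Submodule.map_span] at h2
    exact h2
  have hc : Continuous (plH : C(ℙ k (Fin (N + 1) × Fin (N + 1) → k), ℂ) →⋆ₐ[ℂ] CG k N 2) :=
    ContinuousMap.continuous_precomp _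
  refine Set.eq_univ_of_univ_subset ?_
  intro F _
  obtain ⟨F', rfl⟩ := plH_surj F
  have h3 : F' ∈ closure (Submodule.span ℂ (ID k (Fin (N + 1) × Fin (N + 1))) :
      Set C(ℙ k (Fin (N + 1) × Fin (N + 1) → k), ℂ)) := by rw [id_dense]; trivial
  exact closure_mono h1 (image_closure_subset_closure_image hc ⟨F', h3, rfl⟩)

end dens

/-- the local form of the shell estimate -/
def ShEst {k : Type} [NontriviallyNormedField k] [ProperSpace k] {N : ℕ} {Γ K : Type}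
    [NormedAddCommGroup K] [InnerProductSpace ℂ K] [CompleteSpace K]
    (q : Γ → GG k N) (Z : Set Γ) (D : Set (CG k N 2)) (b : CG k N 1 →⋆ₐ[ℂ] (K →L[ℂ] K))
    (l : CG k N 2 →⋆ₐ[ℂ] (K →L[ℂ] K)) : Prop :=
    ∀ (R : ℝ) (A : Set (YY k N)) (f : CG k N 1) (g : CG k N 2), g ∈ D →
      (∀ M ∈ closure A, ∀ x ∈ tsupport f, ¬ x.1 ≤ (hyp M).1) →
      ∃ T > 0, ∃ (C : ℝ) (d s₀ : ℕ), 0 ≤ C ∧
        ∀ (s : ℕ) (i j : Fin (N + 1)) (S : Finset Γ), s₀ ≤ s →
        (∀ γ ∈ S, γ ∈ Z ∧ NW R (ct (q γ)) ∧ Att T A (ct (q γ)) ∧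
          Real.exp s ≤ nm (ct (q γ)) ∧ nm (ct (q γ)) ≤ Real.exp (s + 1) ∧
          ∀ a b, ‖(ct (q γ)).1 a b‖ ≤ ‖(ct (q γ)).1 i j‖) →
        ∀ ξ : K, ∑ γ ∈ S, ‖b (actG (q γ)⁻¹ f) (l (actG (q γ)⁻¹ g) ξ)‖ ^ 2 ≤
          C * (1 + s) ^ d * ‖ξ‖ ^ 2

section main

variable {k : Type} [NontriviallyNormedField k] [ProperSpace k]

/-- the operator of the indicator function of a measurable set -/
theorem phi_ind {X K : Type*} [TopologicalSpace X] [CompactSpace X] [T2Space X]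
    [SecondCountableTopology X] [MeasurableSpace X] [BorelSpace X] [NormedAddCommGroup K]
    [InnerProductSpace ℂ K] [CompleteSpace K] (φ : C(X, ℂ) →⋆ₐ[ℂ] (K →L[ℂ] K)) {F : C(X, ℂ)}
    {U : Set X} (hU : MeasurableSet U) (h1 : ∀ x ∈ U, F x = 1) (h0 : ∀ x, x ∉ U → F x = 0)
    (hP : Pv (H466.pv φ)) : φ F = H466.pv φ U := by
  have e1 : φ F * H466.pv φ U = φ F := H466.phi_pv_supp φ hU h0
  have e2 : φ (1 - F) * H466.pv φ Uᶜ = φ (1 - F) :=
    H466.phi_pv_supp φ hU.compl fun x hx => by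
      rw [ContinuousMap.sub_apply, ContinuousMap.one_apply, h1 x (not_not.1 hx), sub_self]
  have e3 : H466.pv φ Uᶜ * H466.pv φ U = 0 := by
    rw [hP.compl U hU, sub_mul, one_mul, hP.idem hU, sub_self]
  have e4 : φ (1 - F) * H466.pv φ U = 0 := by rw [← e2, mul_assoc, e3, mul_zero]
  rw [map_sub, map_one, sub_mul, one_mul, e1, sub_eq_zero] at e4
  exact e4.symm

theorem wd_swap {ι : Type} [Fintype ι] (x y : ι → k) : ‖wd x y‖ = ‖wd y x‖ := by
  have : wd y x = - wd x y := by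
    funext p
    simp only [wd, Pi.neg_apply]
    ring
  rw [this, norm_neg]

/-- **the shell estimate** -/
theorem sh3 [IsUltrametricDist k] {N : ℕ} (hN : 2 ≤ N) {Γ K : Type} [NormedAddCommGroup K]
    [InnerProductSpace ℂ K] [CompleteSpace K] (q : Γ → GG k N) (Z : Set Γ)
    (hud : UDn (fun γ => ct (q γ)) Z)
    (b z : CG k N 1 →⋆ₐ[ℂ] (K →L[ℂ] K)) (l ν : CG k N 2 →⋆ₐ[ℂ] (K →L[ℂ] K))
    (p : CG k N 3 →⋆ₐ[ℂ] (K →L[ℂ] K)) (hzl : PL z l) (hzν : PL z ν) (hbν : PL b ν)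
    (hp : Pln b z l ν p) : ShEst q Z (plH '' ID k (Fin (N + 1) × Fin (N + 1))) b l := by
  classical
  intro R A f g hg hfA
  obtain ⟨G, ⟨V, δ, hδ, hδ1, hV, hGV⟩, rfl⟩ := hg
  have hN0 : 0 < N := by omega
  -- measurable structures
  letI m0 : MeasurableSpace k := borel _
  haveI b0 : BorelSpace k := ⟨rfl⟩
  letI m1 : MeasurableSpace (Gr k (Fin (N + 1)) 1) := borel _
  haveI b1 : BorelSpace (Gr k (Fin (N + 1)) 1) := ⟨rfl⟩
  letI m2 : MeasurableSpace (Gr k (Fin (N + 1)) 2) := borel _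
  haveI b2 : BorelSpace (Gr k (Fin (N + 1)) 2) := ⟨rfl⟩
  letI m3 : MeasurableSpace (Gr k (Fin (N + 1)) 3) := borel _
  haveI b3 : BorelSpace (Gr k (Fin (N + 1)) 3) := ⟨rfl⟩
  -- geometry
  have hY₀ : IsClosed ((p1 : YY k N → Gr k (Fin (N + 1)) 1) ⁻¹' tsupport f) :=
    (isClosed_tsupport _).preimage p1_cont
  obtain ⟨T₁, hT₁, C₀, hC₀, hnf⟩ := nfsl (m := N) (Fintype.card_fin _) hN0 R hY₀ (A := A)
    (fun x hx p hp ho => hfA x hx (p1 p) hp (p1_le_hyp.2 ho))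
  set C : ℝ := C₀ + KR N R with hC
  have hKR := one_le_KR N R
  have hC1 : 1 ≤ C := by linarith
  obtain ⟨D₁, hD₁, hkak⟩ := LinU.kak_n (k := k) (ι := Fin (N + 1)) hC1 hδ hδ1
  obtain ⟨M, hM⟩ := cell_card_ud hud (C := KR N R) (D := 1 + D₁) hKR (by linarith)
  obtain ⟨D₂, hD₂, hkak⟩ := hkak M
  -- the measures
  have hI : ∀ i j, IsClosed {x : Gr k (Fin (N + 1)) i × Gr k (Fin (N + 1)) j | x.1.1 ≤ x.2.1} :=
    fun i j => incG_closed
  have hCI : ∀ (x : CG k N 1 →⋆ₐ[ℂ] (K →L[ℂ] K)) (y : CG k N 2 →⋆ₐ[ℂ] (K →L[ℂ] K)), PL x y →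
      CI (fun (b : Gr k (Fin (N + 1)) 2) (a : Gr k (Fin (N + 1)) 1) => a.1 ≤ b.1)
        (H466.pv y) (H466.pv x) := fun x y h =>
    H604.pv_CI y x (I := fun b a => a.1 ≤ b.1) ((hI 1 2).preimage continuous_swap)
      (fun f g => (h.com g f).symm) fun f g hfg => by
        have h1 : x g * y f = 0 := h.inc g f fun a ha b hb hab => hfg b hb a ha hab
        have h2 : Commute (x g) (y f) := h.com g f
        rw [← h2.eq]; exact h1
  have hCI3 : ∀ {i : ℕ} (x : CG k N i →⋆ₐ[ℂ] (K →L[ℂ] K)) [MeasurableSpace (Gr k (Fin (N + 1)) i)]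
      [BorelSpace (Gr k (Fin (N + 1)) i)], Inc2 x p →
      CI (fun (a : Gr k (Fin (N + 1)) i) (c : Gr k (Fin (N + 1)) 3) => a.1 ≤ c.1)
        (H466.pv x) (H466.pv p) := fun {i} x _ _ h =>
    H604.pv_CI x p (I := fun a c => a.1 ≤ c.1) (hI i 3) (fun f g => h.com f g)
      fun f g hfg => h.inc f g hfg
  refine ⟨T₁, hT₁, ‖f‖ ^ 2 * (D₂ * 4), 2, 0, by positivity, ?_⟩
  intro s i j S _ hS ξ
  set r : ℝ := 1 / (Real.exp s * Real.exp (s / N)) with hr
  have hrr : rr N s = r := rfl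
  have hr0 : 0 < r := H835.NF.rr_pos N s
  have hr1 : r ≤ 1 := H835.NF.rr_le_one N (Nat.cast_nonneg s)
  have hab : 1 ≤ Real.exp s * Real.exp (s / N) := by
    rw [hr, div_le_one (by positivity)] at hr1
    exact hr1
  have hNW : ∀ γ ∈ S, NWn (KR N R) (Real.exp s) (Real.exp (s / N)) (ct (q γ)).1
      ((ct (q γ))⁻¹).1 i j := by
    intro γ hγ
    obtain ⟨h1, h2, h3, h4, h5, h6⟩ := hS γ hγ
    exact nwn_sh (Fintype.card_fin _) hN0 h4 h5 h2 h6
  have hct : ∀ γ, (((ct (q γ))⁻¹).1)ᵀ = (q γ).1 := fun γ => taun_inv_tr (q γ)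
  have hη : ∀ γ ∈ S, yy (ct (q γ)).1 i j j = 1 ∧ ‖yy (ct (q γ)).1 i j‖ = 1 ∧
      ∀ (x : Fin (N + 1) → k) (hx : x ≠ 0),
        cl ((q γ).1 *ᵥ x) (H835.NF.mulVec_ne_sl (q γ) hx) ∈
          (p1 : YY k N → Gr k (Fin (N + 1)) 1) ⁻¹' tsupport f →
        ‖wd x (yy (ct (q γ)).1 i j)‖ ≤ C₀ * r * ‖x‖ := by
    intro γ hγ
    obtain ⟨h1, h2, h3, h4, h5, h6⟩ := hS γ hγ
    obtain ⟨-, e1, e2, e3⟩ := hnf T₁ le_rfl s (Nat.cast_nonneg _) (q γ)
      h4 h5 h2 h3 i j h6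
    exact ⟨e1, e2, fun x hx hxY => (e3 x hx hxY).1⟩
  have key := hkak K (H466.pv l) (H466.pv ν) (H466.pv z) (H466.pv b) (H466.pv p)
    (H604.pv_Pv l) (H604.pv_Pv ν) (H604.pv_Pv z) (H604.pv_Pv b) (H604.pv_Pv p)
    (hCI z l hzl) (hCI z ν hzν) (hCI b ν hbν) (hCI3 l hp.l) (hCI3 ν hp.ν) (hCI3 z hp.z)
    (hCI3 b hp.b) Γ S (fun γ => (q γ).1) (fun γ => ((ct (q γ)).1)ᵀ) (fun _ => Real.exp (s / N))
    (fun γ => yy (ct (q γ)).1 i j) (fun _ => V) r hr0 hr1
    (fun γ hγ => by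
      have h1 := hw_of_NWn (hNW γ hγ) hab
      rw [hct γ] at h1
      have hle : KR N R ≤ C := by linarith
      obtain ⟨v, ψ, E, e1, e2, e3⟩ := h1.dec
      have hpos := h1.N_pos
      have hrp := h1.r_pos
      exact ⟨h1.N_pos, h1.r_pos, h1.r_le, hC1, h1.inv, ⟨v, ψ, E, e1,
        fun x y => (e2 x y).trans (by gcongr), fun x y => (e3 x y).trans (by gcongr)⟩,
        fun x y => (h1.size x y).trans (by gcongr)⟩)
    (fun γ hγ => by
      have h1 := nw_of_NWn (hNW γ hγ) hab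
      rw [hct γ] at h1
      have hle : KR N R ≤ C := by linarith
      have hpos := h1.N_pos
      rw [(hη γ hγ).2.1, mul_one]
      refine (pi_norm_le_iff_of_nonneg (by positivity)).2 fun x => (h1.small x).trans ?_
      gcongr)
    (fun γ hγ => (hη γ hγ).2.1)
    (fun γ₀ hγ₀ t ht hh => by
      refine hM (Real.exp s) (Real.exp (s / N)) i j (yy (ct (q γ₀)).1 i j) _ (hη γ₀ hγ₀).2.1
        fun γ hγ => ?_
      refine ⟨(hS γ (ht hγ)).1, hNW γ (ht hγ), ?_⟩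
      have e2 : (1 + D₁) / (Real.exp s * Real.exp (s / N)) = (1 + D₁) * r := by
        rw [hr]; ring
      rw [e2, wd_swap]
      refine (hh γ hγ).trans ?_
      nlinarith)
    (fun γ _ => hV) ξ
  -- the operator of `l`
  have hl : ∀ γ ∈ S, l (actG (q γ)⁻¹ (plH G)) =
      H466.pv l {x | H835.PlF.sq (q γ).1 *ᵥ LinU.pl x ∈ V} := by
    intro γ hγ
    have e : ∀ x, ∃ hv, (actG (q γ)⁻¹ (plH G)) x =
        G (Projectivization.mk k (H835.PlF.sq (q γ).1 *ᵥ LinU.pl x) hv) := by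
      intro x
      have e1 : x = H100.Gr.sp (H99.Sec.fr x) := (H99.Sec.sp_fr x).symm
      have e2 : plk x = Projectivization.mk k (LinU.pl x) (by
        exact H835.PlGr.pw_ne (H99.Sec.fr x)) := by
        conv_lhs => rw [e1, plk_sp]
        rfl
      have e3 : (lam2 (q γ) • Projectivization.mk k (LinU.pl x)
          (H835.PlGr.pw_ne (H99.Sec.fr x))) =
        Projectivization.mk k (lam2 (q γ) • LinU.pl x) ((smul_ne_zero_iff_ne _).2
          (H835.PlGr.pw_ne (H99.Sec.fr x))) := rfl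
      refine ⟨(smul_ne_zero_iff_ne (lam2 (q γ))).2 (H835.PlGr.pw_ne (H99.Sec.fr x)), ?_⟩
      change G (plk (((q γ)⁻¹)⁻¹ • x)) = _
      rw [_root_.inv_inv, plk_smul, e2, e3]
      rfl
    refine phi_ind l (LinU.meas_pl hδ hV (q γ).1) ?_ ?_ (H604.pv_Pv l)
    · intro x hx
      obtain ⟨hv, e⟩ := e x
      rw [e]
      exact (hGV _ hv).1 hx
    · intro x hx
      obtain ⟨hv, e⟩ := e x
      rw [e]
      exact (hGV _ hv).2 hx
  -- from the discs to the operators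
  have hb : ∀ γ ∈ S, ‖b (actG (q γ)⁻¹ f) (l (actG (q γ)⁻¹ (plH G)) ξ)‖ ^ 2 ≤
      ‖f‖ ^ 2 * ‖H466.pv b {y | ∀ w ∈ y.1, ‖wd w (yy (ct (q γ)).1 i j)‖ ≤ C * r * ‖w‖}
        (H466.pv l {x | H835.PlF.sq (q γ).1 *ᵥ LinU.pl x ∈ V} ξ)‖ ^ 2 := by
    intro γ hγ
    rw [hl γ hγ]
    have hm : MeasurableSet {y : Gr k (Fin (N + 1)) 1 | ∀ w ∈ y.1,
        ‖wd w (yy (ct (q γ)).1 i j)‖ ≤ C * r * ‖w‖} := (LinU.ball_closed _ _).measurableSet
    have h1 : b (actG (q γ)⁻¹ f) * H466.pv b {y | ∀ w ∈ y.1,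
        ‖wd w (yy (ct (q γ)).1 i j)‖ ≤ C * r * ‖w‖} = b (actG (q γ)⁻¹ f) := by
      refine H466.phi_pv_supp b hm fun y hy => ?_
      by_contra hne
      refine hy fun w hw => ?_
      by_cases hw0 : w = 0
      · subst hw0
        have : wd (0 : Fin (N + 1) → k) (yy (ct (q γ)).1 i j) = 0 := by
          funext p; simp [wd]
        rw [this]; simp
      · have hmem : y ∈ tsupport (actG (q γ)⁻¹ f) := subset_tsupport _ hne
        have h2 := tsupport_act (q γ) f hmem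
        have hy' : p1 (Projectivization.mk k w hw0) = y := by
          refine H100.Gr.eq_of_le ?_
          rw [H644.Gr3.p1_mk, Submodule.span_singleton_le_iff_mem]
          exact hw
        have h3 := (hη γ hγ).2.2 w hw0 (by
          rw [Set.mem_preimage]
          have h4 : p1 (cl ((q γ).1 *ᵥ w) (H835.NF.mulVec_ne_sl (q γ) hw0)) = q γ • y := by
            conv_rhs => rw [← hy']
            rw [← p1_smul']
            rfl
          rw [h4]
          exact h2)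
        refine h3.trans ?_
        have hle : C₀ ≤ C := by linarith
        gcongr
    have h2 : b (actG (q γ)⁻¹ f) (H466.pv l {x | H835.PlF.sq (q γ).1 *ᵥ LinU.pl x ∈ V} ξ) =
        b (actG (q γ)⁻¹ f) (H466.pv b {y | ∀ w ∈ y.1,
          ‖wd w (yy (ct (q γ)).1 i j)‖ ≤ C * r * ‖w‖}
            (H466.pv l {x | H835.PlF.sq (q γ).1 *ᵥ LinU.pl x ∈ V} ξ)) := by
      conv_lhs => rw [← h1]
      rfl
    rw [h2, ← mul_pow]
    refine pow_le_pow_left₀ (norm_nonneg _) ?_ 2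
    have h3 : ‖b (actG (q γ)⁻¹ f)‖ ≤ ‖f‖ :=
      (NonUnitalStarAlgHom.norm_apply_le b _).trans (norm_actG_le _ _)
    exact (ContinuousLinearMap.le_opNorm _ _).trans
      (mul_le_mul_of_nonneg_right h3 (norm_nonneg _))
  refine (Finset.sum_le_sum hb).trans ?_
  rw [← Finset.mul_sum]
  refine (mul_le_mul_of_nonneg_left key (sq_nonneg _)).trans ?_
  have h3 := log_rr (N := N) (by omega) s
  rw [hrr] at h3
  have h4 : 0 ≤ Real.log (1 / r) := Real.log_nonneg (by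
    rw [one_le_div hr0]; exact hr1)
  have h5 : (1 + Real.log (1 / r)) ^ 2 ≤ 4 * (1 + (s : ℝ)) ^ 2 := by
    calc (1 + Real.log (1 / r)) ^ 2 ≤ (2 * (1 + (s : ℝ))) ^ 2 := by gcongr
      _ = _ := by ring
  calc ‖f‖ ^ 2 * (D₂ * (1 + Real.log (1 / r)) ^ 2 * ‖ξ‖ ^ 2)
      ≤ ‖f‖ ^ 2 * (D₂ * (4 * (1 + (s : ℝ)) ^ 2) * ‖ξ‖ ^ 2) := by gcongr
    _ = _ := by ring

/-- the global form -/
theorem est_of_sh {N : ℕ} (hN : 2 ≤ N) {Γ K : Type} [NormedAddCommGroup K] [InnerProductSpace ℂ K]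
    [CompleteSpace K] (q : Γ → GG k N) (Z : ℝ → Set Γ) (hZ : ∀ R, UD q (Z R))
    {D : Set (CG k N 2)} {b : CG k N 1 →⋆ₐ[ℂ] (K →L[ℂ] K)} {l : CG k N 2 →⋆ₐ[ℂ] (K →L[ℂ] K)}
    (h : ∀ R, ShEst q (Z R) D b l) : Est q Z D b l := by
  classical
  intro R A f g hg hfA
  have hud : UDn (fun γ => ct (q γ)) (Z R) := H914.udn_taun (hZ R)
  obtain ⟨T, hT, C, d, s₀, hC, h⟩ := h R R A f g hg hfA
  obtain ⟨M₀, hM₀⟩ := ball_card_ud hud (Real.exp s₀ + (1 + |R| * Real.exp s₀))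
  have hNpos : N ≠ 0 := by omega
  obtain ⟨C', hC', hsum⟩ := sum_shells (fun γ => ct (q γ))
    (fun γ (ξ : K) => ‖b (actG (q γ)⁻¹ f) (l (actG (q γ)⁻¹ g) ξ)‖ ^ 2)
    (fun γ ξ => sq_nonneg _) (fun γ => γ ∈ Z R ∧ NW R (ct (q γ)) ∧ Att T A (ct (q γ)))
    s₀ M₀ (B := (‖f‖ * ‖g‖) ^ 2) (sq_nonneg _)
    (by
      intro γ _ ξ
      rw [← mul_pow]
      refine pow_le_pow_left₀ (norm_nonneg _) ?_ 2
      have h1 : ‖b (actG (q γ)⁻¹ f)‖ ≤ ‖f‖ :=
        (NonUnitalStarAlgHom.norm_apply_le b _).trans (norm_actG_le _ _)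
      have h2 : ‖l (actG (q γ)⁻¹ g)‖ ≤ ‖g‖ :=
        (NonUnitalStarAlgHom.norm_apply_le l _).trans (norm_actG_le _ _)
      calc _ ≤ ‖b (actG (q γ)⁻¹ f)‖ * ‖l (actG (q γ)⁻¹ g) ξ‖ :=
            ContinuousLinearMap.le_opNorm _ _
        _ ≤ ‖f‖ * (‖g‖ * ‖ξ‖) := by
            refine mul_le_mul h1 ?_ (norm_nonneg _) (norm_nonneg _)
            exact (ContinuousLinearMap.le_opNorm _ _).trans
              (mul_le_mul_of_nonneg_right h2 (norm_nonneg _))
        _ = _ := by ring)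
    (by
      intro S hS
      refine hM₀ S fun γ hγ => ?_
      obtain ⟨⟨h1, h2, h3⟩, h4⟩ := hS γ hγ
      have hR : 0 ≤ |R| * Real.exp s₀ := by positivity
      refine ⟨h1, h4.trans (by linarith), ?_⟩
      have h5 : nmn (ct (q γ))⁻¹ ^ N ≤ |R| * Real.exp s₀ :=
        h2.trans ((mul_le_mul_of_nonneg_right (le_abs_self R) (norm_nonneg _)).trans
          (mul_le_mul_of_nonneg_left h4 (abs_nonneg R)))
      have h6 : nmn (ct (q γ))⁻¹ ^ N ≤ (1 + |R| * Real.exp s₀) ^ N := by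
        refine h5.trans ?_
        calc |R| * Real.exp s₀ ≤ (1 + |R| * Real.exp s₀) ^ 1 := by rw [pow_one]; linarith
          _ ≤ _ := pow_le_pow_right₀ (by linarith) (by omega)
      exact (le_of_pow_le_pow_left₀ hNpos (by positivity) h6).trans
        (by linarith [Real.exp_pos (s₀ : ℝ)]))
    hC d
    (by
      intro s i j S hs hS ξ
      exact h s i j S hs (fun γ hγ => by
        obtain ⟨⟨h1, h2, h3⟩, h4, h5, h6⟩ := hS γ hγ
        exact ⟨h1, h2, h3, h4, h5, h6⟩) ξ)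
  refine ⟨T, hT, C', d + 1, fun J hJ S hS ξ => ?_⟩
  exact hsum J hJ S (fun γ hγ => ⟨(hS γ hγ).1, (hS γ hγ).2⟩) ξ

/-- **`NJB3Stmt k`** over every non-archimedean local field, every `n ≥ 3` -/
theorem nj3U [IsUltrametricDist k] : NJB3Stmt k := by
  intro N hN
  refine ⟨plH '' ID k (Fin (N + 1) × Fin (N + 1)), dense_imageU, ?_⟩
  intro Γ K _ _ _ _ q Z hZ b z l ν p hzl hzν hbν hp
  exact est_of_sh hN q Z hZ fun R =>
    sh3 hN q (Z R) (H914.udn_taun (hZ R)) b z l ν p hzl hzν hbν hp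

/-- **`KeyStmt k μ`** over every non-archimedean local field, every `n ≥ 3` -/
theorem keyU [IsUltrametricDist k] [MeasurableSpace k] [BorelSpace k] {μ : Measure k}
    [IsFiniteMeasureOnCompacts μ] [μ.IsOpenPosMeasure] : KeyStmt k μ := keyStmt3 nj3U

end main

end Vale.Agent.P092.H68.Nj3U
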