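import Vale.Agent.P092.H232.Join

/-!
P092, TEAM N (helper68), [N-PL] = (2), (3), (4) of #5998 (helper720), abstract part.

`A` = points, `Z` = subspaces of dimension `n - 3`, `Q` = subspaces of dimension `n - 2`,
`M` = hyperplanes of the target.
-/

set_option linter.all false

namespace Vale.Agent.P092.H68.NPL

open Set Topology
open Vale.Agent.P092.H218 (loc loc_op mul_ap)
open Vale.Agent.P092.H232

section

variable {A Z Q M K : Type*} [TopologicalSpace A] [CompactSpace A] [T2Space A]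
  [TopologicalSpace Z] [CompactSpace Z] [T2Space Z]
  [TopologicalSpace Q] [CompactSpace Q] [T2Space Q]
  [TopologicalSpace M] [CompactSpace M] [T2Space M]
  [NormedAddCommGroup K] [InnerProductSpace ℂ K] [CompleteSpace K]

/-- the product `β w · ζ v · R` vanishes for non-incident `w`, `v` -/
theorem prod_zero {IAQ : A → Q → Prop} {IZQ : Z → Q → Prop} {IAZ : A → Z → Prop}
    (hAQ : IsClosed {q : A × Q | IAQ q.1 q.2}) (hZQ : IsClosed {q : Z × Q | IZQ q.1 q.2})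
    (huniq : ∀ a z, ¬ IAZ a z → ∀ q q', IAQ a q → IZQ z q → IAQ a q' → IZQ z q' → q = q')
    (be : C(A, ℂ) →⋆ₐ[ℂ] (K →L[ℂ] K)) (ze : C(Z, ℂ) →⋆ₐ[ℂ] (K →L[ℂ] K))
    (p x : C(Q, ℂ) →⋆ₐ[ℂ] (K →L[ℂ] K))
    (hbx : ∀ w u, Commute (be w) (x u)) (hzp : ∀ v f, Commute (ze v) (p f))
    (hzx : ∀ v u, Commute (ze v) (x u))
    (ibx : ∀ w u, Nin IAQ w u → be w * x u = 0)
    (izp : ∀ v f, Nin IZQ v f → ze v * p f = 0)
    (izx : ∀ v u, Nin IZQ v u → ze v * x u = 0)
    (key2 : ∀ w f u, Nin IAQ w f → Nin IAQ w u → be w * p f * x u = 0)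
    {u f a : C(Q, ℂ)} (huf : Disjoint (tsupport ⇑u) (tsupport ⇑f))
    (hua : Disjoint (tsupport ⇑u) (tsupport ⇑a)) (w : C(A, ℂ)) (v : C(Z, ℂ))
    (hwv : Nin IAZ w v) : be w * ze v * (x u * p f * x a) = 0 := by
  refine two_ind (A := K →L[ℂ] K) (S₁ := tsupport ⇑w) (S₂ := tsupport ⇑v)
    (fun w' v' => be w' * ze v' * (x u * p f * x a))
    (fun w' w'' v' => by simp only [map_add, add_mul])
    (fun w' v' v'' => by simp only [mul_add, map_add, add_mul])
    (isClosed_tsupport _).isCompact (isClosed_tsupport _).isCompact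
    (fun a₀ ha₀ z₀ hz₀ => ?_) w v subset_rfl subset_rfl
  have hn : ¬ IAZ a₀ z₀ := hwv a₀ ha₀ z₀ hz₀
  have hcomm : ∀ v' u' f' a', ze v' * (x u' * p f' * x a') = x u' * p f' * x a' * ze v' :=
    fun v' u' f' a' => (((hzx v' u').mul_right (hzp v' f')).mul_right (hzx v' a')).eq
  by_cases hc : ∀ q ∈ tsupport ⇑u, IAQ a₀ q → IZQ z₀ q → False
  · obtain ⟨u₁, u₂, hu, O, V, hO, haO, hV, hzV, h1, h2⟩ := split_inc hAQ hZQ u hc
    refine ⟨O, V, hO, haO, hV, hzV, fun w' v' hw' hv' => ?_⟩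
    have e1 : be w' * x u₁ = 0 := ibx _ _ (h1 _ hw')
    have e2 : ze v' * x u₂ = 0 := izx _ _ (h2 _ hv')
    have e3 : be w' * ze v' * (x u₁ * p f * x a) = 0 := by
      rw [mul_assoc, hcomm, ← mul_assoc, ← mul_assoc, ← mul_assoc, e1, zero_mul, zero_mul,
        zero_mul]
    have e4 : be w' * ze v' * (x u₂ * p f * x a) = 0 := by
      rw [mul_assoc (be w'), ← mul_assoc (ze v'), ← mul_assoc (ze v'), e2, zero_mul, zero_mul,
        mul_zero]
    change be w' * ze v' * (x u * p f * x a) = 0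
    rw [hu, map_add, add_mul, add_mul, mul_add, e3, e4, add_zero]
  · push Not at hc
    obtain ⟨q₀, hq₀, h10, h20, -⟩ := hc
    have hf : ∀ q ∈ tsupport ⇑f, IAQ a₀ q → IZQ z₀ q → False := by
      intro q hq h1 h2
      rw [huniq a₀ z₀ hn q q₀ h1 h2 h10 h20] at hq
      exact disjoint_left.1 huf hq₀ hq
    have ha : ∀ q ∈ tsupport ⇑a, IAQ a₀ q → IZQ z₀ q → False := by
      intro q hq h1 h2
      rw [huniq a₀ z₀ hn q q₀ h1 h2 h10 h20] at hq
      exact disjoint_left.1 hua hq₀ hq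
    obtain ⟨f₁, f₂, hfe, O, V, hO, haO, hV, hzV, h1, h2⟩ := split_inc hAQ hZQ f hf
    obtain ⟨a₁, a₂, hae, O', V', hO', haO', hV', hzV', h1', h2'⟩ := split_inc hAQ hZQ a ha
    refine ⟨O ∩ O', V ∩ V', hO.inter hO', ⟨haO, haO'⟩, hV.inter hV', ⟨hzV, hzV'⟩,
      fun w' v' hw' hv' => ?_⟩
    have e1 : be w' * p f₁ * x a₁ = 0 :=
      key2 _ _ _ (h1 _ (hw'.trans inter_subset_left)) (h1' _ (hw'.trans inter_subset_right))
    have e2 : ze v' * p f₂ = 0 := izp _ _ (h2 _ (hv'.trans inter_subset_left))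
    have e3 : ze v' * x a₂ = 0 := izx _ _ (h2' _ (hv'.trans inter_subset_right))
    have e2' : ze v' * (x u * p f₂ * x a) = 0 := by
      rw [← mul_assoc, ← mul_assoc, (hzx v' u).eq, mul_assoc (x u), e2, mul_zero, zero_mul]
    have e3' : ze v' * (x u * p f₁ * x a₂) = 0 := by
      rw [hcomm, mul_assoc (x u * p f₁), ← (hzx v' a₂).eq, e3, mul_zero]
    have e1' : be w' * ze v' * (x u * p f₁ * x a₁) = 0 := by
      rw [mul_assoc (be w'), hcomm, ← mul_assoc (be w'), mul_assoc (x u), ← mul_assoc (be w'),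
        (hbx w' u).eq, mul_assoc (x u), ← mul_assoc (be w'), e1, mul_zero, zero_mul]
    change be w' * ze v' * (x u * p f * x a) = 0
    have e5 : ze v' * (x u * p f * x a) = ze v' * (x u * p f₁ * x a₁) := by
      rw [hfe, map_add, mul_add, add_mul, mul_add, e2', add_zero, hae, map_add, mul_add, mul_add,
        e3', add_zero]
    rw [mul_assoc (be w'), e5, ← mul_assoc (be w'), e1']

/-- **(3)**: the calculi of two `(n-2)`-spaces with a common `(n-3)`-space commute. -/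
theorem comm_PX {IAQ : A → Q → Prop} {IZQ : Z → Q → Prop} {IAZ : A → Z → Prop}
    (hAQ : IsClosed {q : A × Q | IAQ q.1 q.2}) (hZQ : IsClosed {q : Z × Q | IZQ q.1 q.2})
    (huniq : ∀ a z, ¬ IAZ a z → ∀ q q', IAQ a q → IZQ z q → IAQ a q' → IZQ z q' → q = q')
    (be : C(A, ℂ) →⋆ₐ[ℂ] (K →L[ℂ] K)) (ze : C(Z, ℂ) →⋆ₐ[ℂ] (K →L[ℂ] K))
    (p x : C(Q, ℂ) →⋆ₐ[ℂ] (K →L[ℂ] K))
    (hbx : ∀ w u, Commute (be w) (x u)) (hzp : ∀ v f, Commute (ze v) (p f))
    (hzx : ∀ v u, Commute (ze v) (x u))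
    (ibx : ∀ w u, Nin IAQ w u → be w * x u = 0)
    (izp : ∀ v f, Nin IZQ v f → ze v * p f = 0)
    (izx : ∀ v u, Nin IZQ v u → ze v * x u = 0)
    (key2 : ∀ w f u, Nin IAQ w f → Nin IAQ w u → be w * p f * x u = 0)
    (tot : ∀ ξ : K, (∀ w v, Nin IAZ w v → be w (ze v ξ) = 0) → ξ = 0) (f g : C(Q, ℂ)) :
    Commute (p f) (x g) := by
  refine comm_of_key x p (fun u f a huf hua => ?_) f g
  ext ξ
  refine tot _ fun w v hwv => ?_
  have := congrArg (fun T : K →L[ℂ] K => T ξ)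
    (prod_zero hAQ hZQ huniq be ze p x hbx hzp hzx ibx izp izx key2 huf hua w v hwv)
  simpa [mul_ap] using this

/-- **(4)**: `T` commutes with the calculus of a hyperplane, if it commutes with the calculi of
two different subspaces of it. -/
theorem comm_T {I : Q → M → Prop} (hI : IsClosed {q : Q × M | I q.1 q.2})
    (huniq : ∀ q q', q ≠ q' → ∀ m m', I q m → I q' m → I q m' → I q' m' → m = m')
    (x y : C(Q, ℂ) →⋆ₐ[ℂ] (K →L[ℂ] K)) (l : C(M, ℂ) →⋆ₐ[ℂ] (K →L[ℂ] K)) (T : K →L[ℂ] K)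
    (hxl : ∀ a g, Commute (x a) (l g)) (hyl : ∀ a g, Commute (y a) (l g))
    (ixl : ∀ a g, Nin I a g → x a * l g = 0) (iyl : ∀ a g, Nin I a g → y a * l g = 0)
    (agr : ∀ ξ : K, (∀ f, x f ξ = y f ξ) → ξ = 0)
    (hTx : ∀ a, Commute T (x a)) (hTy : ∀ a, Commute T (y a)) (g : C(M, ℂ)) :
    Commute T (l g) := by
  have h0 : ∀ g g' : C(M, ℂ), Disjoint (tsupport ⇑g) (tsupport ⇑g') → l g * T * l g' = 0 := by
    intro g g' hgg
    ext ξ
    refine agr _ fun f => ?_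
    have main : ∀ a a' : C(Q, ℂ), Disjoint (tsupport ⇑a) (tsupport ⇑a') →
        x a * y a' * (l g * T * l g') = 0 := by
      intro a a' haa
      refine two_ind (A := K →L[ℂ] K) (S₁ := tsupport ⇑a) (S₂ := tsupport ⇑a')
        (fun a a' => x a * y a' * (l g * T * l g'))
        (fun w' w'' v' => by simp only [map_add, add_mul])
        (fun w' v' v'' => by simp only [mul_add, map_add, add_mul])
        (isClosed_tsupport _).isCompact (isClosed_tsupport _).isCompact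
        (fun q hq q' hq' => ?_) a a' subset_rfl subset_rfl
      have hne : q ≠ q' := by
        rintro rfl
        exact disjoint_left.1 haa hq hq'
      by_cases hc : ∀ m ∈ tsupport ⇑g, I q m → I q' m → False
      · obtain ⟨g₁, g₂, hg, O, V, hO, hqO, hV, hqV, h1, h2⟩ := split_inc hI hI g hc
        refine ⟨O, V, hO, hqO, hV, hqV, fun b b' hb hb' => ?_⟩
        have e1 : x b * l g₁ = 0 := ixl _ _ (h1 _ hb)
        have e2 : y b' * l g₂ = 0 := iyl _ _ (h2 _ hb')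
        have e3 : x b * y b' * (l g₁ * T * l g') = 0 := by
          rw [← mul_assoc, ← mul_assoc, mul_assoc (x b) (y b'), (hyl b' g₁).eq, ← mul_assoc (x b),
            e1, zero_mul, zero_mul, zero_mul]
        have e4 : x b * y b' * (l g₂ * T * l g') = 0 := by
          rw [← mul_assoc, ← mul_assoc, mul_assoc (x b) (y b'), e2, mul_zero, zero_mul, zero_mul]
        change x b * y b' * (l g * T * l g') = 0
        rw [hg, map_add, add_mul, add_mul, mul_add, e3, e4, add_zero]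
      · push Not at hc
        obtain ⟨m₀, hm₀, h10, h20, -⟩ := hc
        have hg' : ∀ m ∈ tsupport ⇑g', I q m → I q' m → False := by
          intro m hm h1 h2
          rw [huniq q q' hne m m₀ h1 h2 h10 h20] at hm
          exact disjoint_left.1 hgg hm₀ hm
        obtain ⟨g₁, g₂, hge, O, V, hO, hqO, hV, hqV, h1, h2⟩ := split_inc hI hI g' hg'
        refine ⟨O, V, hO, hqO, hV, hqV, fun b b' hb hb' => ?_⟩
        have e1 : x b * l g₁ = 0 := ixl _ _ (h1 _ hb)
        have e2 : y b' * l g₂ = 0 := iyl _ _ (h2 _ hb')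
        have c1 : x b * y b' * (l g * T) = l g * T * (x b * y b') :=
          (((hxl b g).mul_left (hyl b' g)).mul_right
            (((hTx b).symm).mul_left ((hTy b').symm))).eq
        have e3 : x b * y b' * (l g * T * l g₁) = 0 := by
          rw [← mul_assoc (x b * y b'), c1, mul_assoc (l g * T), mul_assoc (x b) (y b'),
            (hyl b' g₁).eq, ← mul_assoc (x b), e1, zero_mul, mul_zero]
        have e4 : x b * y b' * (l g * T * l g₂) = 0 := by
          rw [← mul_assoc (x b * y b'), c1, mul_assoc (l g * T), mul_assoc (x b) (y b'), e2,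
            mul_zero, mul_zero]
        change x b * y b' * (l g * T * l g') = 0
        rw [hge, map_add, mul_add, mul_add, e3, e4, add_zero]
    have hl := loc x y (1 : K →L[ℂ] K) ((l g * T * l g') ξ) (fun a a' haa => ?_) f
    · simpa using hl.symm
    · have := congrArg (fun S : K →L[ℂ] K => S ξ) (main a a' haa)
      simpa [mul_ap] using this
  have h3 := loc_op l l T (fun g g' hgg => by
    have := h0 g g' hgg
    rw [mul_assoc] at this
    exact this) g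
  exact h3

/-- **all hyperplanes commute**: `x₁, x₂ ⊂ m`, `y₁, y₂ ⊂ m'`, all four pairs commute. -/
theorem comm_MM {I : Q → M → Prop} (hI : IsClosed {q : Q × M | I q.1 q.2})
    (huniq : ∀ q q', q ≠ q' → ∀ m m', I q m → I q' m → I q m' → I q' m' → m = m')
    (x y x' y' : C(Q, ℂ) →⋆ₐ[ℂ] (K →L[ℂ] K)) (l l' : C(M, ℂ) →⋆ₐ[ℂ] (K →L[ℂ] K))
    (hxl : ∀ a g, Commute (x a) (l g)) (hyl : ∀ a g, Commute (y a) (l g))
    (ixl : ∀ a g, Nin I a g → x a * l g = 0) (iyl : ∀ a g, Nin I a g → y a * l g = 0)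
    (agr : ∀ ξ : K, (∀ f, x f ξ = y f ξ) → ξ = 0)
    (hxl' : ∀ a g, Commute (x' a) (l' g)) (hyl' : ∀ a g, Commute (y' a) (l' g))
    (ixl' : ∀ a g, Nin I a g → x' a * l' g = 0) (iyl' : ∀ a g, Nin I a g → y' a * l' g = 0)
    (agr' : ∀ ξ : K, (∀ f, x' f ξ = y' f ξ) → ξ = 0)
    (h1 : ∀ a b, Commute (x' a) (x b)) (h2 : ∀ a b, Commute (x' a) (y b))
    (h3 : ∀ a b, Commute (y' a) (x b)) (h4 : ∀ a b, Commute (y' a) (y b)) (g g' : C(M, ℂ)) :
    Commute (l g) (l' g') := by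
  have e1 : ∀ a, Commute (x' a) (l g) := fun a =>
    comm_T hI huniq x y l (x' a) hxl hyl ixl iyl agr (h1 a) (h2 a) g
  have e2 : ∀ a, Commute (y' a) (l g) := fun a =>
    comm_T hI huniq x y l (y' a) hxl hyl ixl iyl agr (h3 a) (h4 a) g
  exact comm_T hI huniq x' y' l' (l g) hxl' hyl' ixl' iyl' agr' (fun a => (e1 a).symm)
    (fun a => (e2 a).symm) g'

/-- **(2)**: `β_c(u) G_P(f) G_X(a) = 0` for points of `u` neither on `(n-2)`-spaces of `f` nor on
`(n-2)`-spaces of `a`, from KEY_P. `IAM`, `IQM`, `IAQ` = inclusions. -/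
theorem key2_of {IAM : A → M → Prop} {IQM : Q → M → Prop} {IAQ : A → Q → Prop}
    (hAM : IsClosed {q : A × M | IAM q.1 q.2}) (hQM : IsClosed {q : Q × M | IQM q.1 q.2})
    (hAQ : IsClosed {q : A × Q | IAQ q.1 q.2})
    (huniq : ∀ a q, ¬ IAQ a q → ∀ m m', IAM a m → IQM q m → IAM a m' → IQM q m' → m = m')
    (be : C(A, ℂ) →⋆ₐ[ℂ] (K →L[ℂ] K)) (p x : C(Q, ℂ) →⋆ₐ[ℂ] (K →L[ℂ] K))
    (l m : C(M, ℂ) →⋆ₐ[ℂ] (K →L[ℂ] K))
    (hbl : ∀ u v, Commute (be u) (l v)) (hxl : ∀ a v, Commute (x a) (l v))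
    (hpl : ∀ f v, Commute (p f) (l v)) (hxm : ∀ a s, Commute (x a) (m s))
    (ibl : ∀ u v, Nin IAM u v → be u * l v = 0) (ixl : ∀ a v, Nin IQM a v → x a * l v = 0)
    (ixm : ∀ a s, Nin IQM a s → x a * m s = 0)
    (agr : ∀ ξ : K, (∀ f, l f ξ = m f ξ) → ξ = 0)
    (key : ∀ u f s, Nin IAQ u f → Nin IAM u s → be u * p f * m s = 0)
    (u : C(A, ℂ)) (f a : C(Q, ℂ)) (huf : Nin IAQ u f) (hua : Nin IAQ u a) :
    be u * p f * x a = 0 := by
  have hD : IsClosed {t : A | ∃ q ∈ tsupport ⇑f, IAQ t q} :=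
    Vale.Agent.P092.H835.isClosed_meet' hAQ (isClosed_tsupport _)
  refine join (J := IAQ) hAM hQM huniq be x (p f) l m hbl hxl (fun v => hpl f v) hxm ibl ixl ixm
    agr (D := {t : A | ∃ q ∈ tsupport ⇑f, IAQ t q}ᶜ) hD.isOpen_compl (fun u' s hu' hs => ?_) u a
    (fun t ht => ?_) hua
  · exact key u' f s (fun t ht q hq hi => hu' ht ⟨q, hq, hi⟩) hs
  · rintro ⟨q, hq, hi⟩
    exact huf t ht q hq hi

end

end Vale.Agent.P092.H68.NPL
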