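import Vale.Agent.P092.SN.Blocks

/-!
P092, TEAM N (helper68): the estimate behind KEY with one more calculus, the calculus of the plane
`b + l` (dimension 3). `NJB3Stmt` is implied by `NJBStmt`; it is what the slicing along the plane
(planar Kakeya estimates) proves.
-/

set_option linter.all false

open scoped InnerProductSpace ENNReal LinearAlgebra.Projectivization ZeroAtInfty
open Filter Topology ContinuousLinearMap MeasureTheory TopologicalSpace Module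

namespace Vale.Agent.P092.H68.Nj3

open Vale.Agent.P092.SN
open Vale.Agent.P092.RC (GG PG YY y0 ct)
open Vale.Agent.P092.H100.Gr (Gr)
open Vale.Agent.P092.H644.Gr3 (p1 hyp)
open Vale.Agent.P092.H218.NC

/-- exact incidence and commutation of the calculi of two nested subspaces -/
structure Inc2 {k : Type} [NontriviallyNormedField k] [ProperSpace k] {N i j : ℕ} {K : Type}
    [NormedAddCommGroup K] [InnerProductSpace ℂ K] [CompleteSpace K]
    (x : CG k N i →⋆ₐ[ℂ] (K →L[ℂ] K)) (p : CG k N j →⋆ₐ[ℂ] (K →L[ℂ] K)) : Prop where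
  com : ∀ f g, Commute (x f) (p g)
  inc : ∀ u h, H232.Nin In u h → x u * p h = 0

/-- the calculus of a plane (dimension 3) which contains `b, z, l, ν` -/
structure Pln {k : Type} [NontriviallyNormedField k] [ProperSpace k] {N : ℕ} {K : Type}
    [NormedAddCommGroup K] [InnerProductSpace ℂ K] [CompleteSpace K]
    (b z : CG k N 1 →⋆ₐ[ℂ] (K →L[ℂ] K)) (l ν : CG k N 2 →⋆ₐ[ℂ] (K →L[ℂ] K))
    (p : CG k N 3 →⋆ₐ[ℂ] (K →L[ℂ] K)) : Prop where
  b : Inc2 b p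
  z : Inc2 z p
  l : Inc2 l p
  ν : Inc2 ν p

/-- the conclusion of `NJBStmt` for the calculi `b`, `l` -/
def Est {k : Type} [NontriviallyNormedField k] [ProperSpace k] {N : ℕ} {K Γ : Type}
    [NormedAddCommGroup K] [InnerProductSpace ℂ K] [CompleteSpace K] (q : Γ → GG k N)
    (Z : ℝ → Set Γ) (D : Set (CG k N 2)) (b : CG k N 1 →⋆ₐ[ℂ] (K →L[ℂ] K))
    (l : CG k N 2 →⋆ₐ[ℂ] (K →L[ℂ] K)) : Prop :=
  ∀ (R : ℝ) (A : Set (YY k N)) (f : CG k N 1) (g : CG k N 2), g ∈ D →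
      (∀ M ∈ closure A, ∀ x ∈ tsupport f, ¬ x.1 ≤ (hyp M).1) →
      ∃ T > 0, ∃ (C : ℝ) (d : ℕ), ∀ J : ℝ, 0 ≤ J → ∀ S : Finset Γ,
        (∀ γ ∈ S, γ ∈ NWA (fun γ => ct (q γ)) Z R T A ∧ Real.log (nm (ct (q γ))) ≤ J) →
        ∀ ξ : K, ∑ γ ∈ S, ‖b (actG (q γ)⁻¹ f) (l (actG (q γ)⁻¹ g) ξ)‖ ^ 2 ≤
          C * (1 + J) ^ d * ‖ξ‖ ^ 2

/-- **NJB with the calculus of the plane** -/
def NJB3Stmt (k : Type) [NontriviallyNormedField k] [ProperSpace k] : Prop :=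
  ∀ {N : ℕ}, 2 ≤ N → ∃ D : Set (CG k N 2), closure (Submodule.span ℂ D : Set (CG k N 2)) = Set.univ ∧
  ∀ {Γ K : Type} [Group Γ] [NormedAddCommGroup K] [InnerProductSpace ℂ K] [CompleteSpace K]
    (q : Γ → GG k N) (Z : ℝ → Set Γ), (∀ R, UD q (Z R)) →
    ∀ (b z : CG k N 1 →⋆ₐ[ℂ] (K →L[ℂ] K)) (l ν : CG k N 2 →⋆ₐ[ℂ] (K →L[ℂ] K))
      (p : CG k N 3 →⋆ₐ[ℂ] (K →L[ℂ] K)),
      PL z l → PL z ν → PL b ν → Pln b z l ν p → Est q Z D b l

theorem njb3_of_njb {k : Type} [NontriviallyNormedField k] [ProperSpace k] (h : NJBStmt k) :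
    NJB3Stmt k := by
  intro N hN
  obtain ⟨D, hD, h1⟩ := h hN
  refine ⟨D, hD, ?_⟩
  intro Γ K _ _ _ _ q Z hZ b z l ν p h2 h3 h4 _
  exact h1 q Z hZ b z l ν h2 h3 h4

section plane

variable {k : Type} [NontriviallyNormedField k] [ProperSpace k] {N : ℕ} {K : Type}
  [NormedAddCommGroup K] [InnerProductSpace ℂ K] [CompleteSpace K]

/-- evaluation at a point -/
noncomputable def ev {X : Type*} [TopologicalSpace X] [CompactSpace X] (x : X) :
    C(X, ℂ) →⋆ₐ[ℂ] (K →L[ℂ] K) where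
  toFun f := f x • (1 : K →L[ℂ] K)
  map_one' := by simp
  map_mul' f g := by
    rw [ContinuousMap.mul_apply, smul_mul_smul_comm, one_mul]
  map_zero' := by simp
  map_add' f g := by simp [add_smul]
  commutes' r := by
    change r • (1 : K →L[ℂ] K) = _
    rw [Algebra.algebraMap_eq_smul_one]
  map_star' f := by
    rw [star_smul, star_one]; rfl

theorem top_inc {i : ℕ} (x : CG k 2 i →⋆ₐ[ℂ] (K →L[ℂ] K)) (P₀ : Gr k (Fin 3) 3) :
    Inc2 x (ev P₀) := by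
  refine ⟨fun f g => ?_, fun u h hn => ?_⟩
  · exact ((Commute.one_right _).smul_right _)
  · have hP : P₀.1 = ⊤ := Submodule.eq_top_of_finrank_eq (by
      rw [P₀.2, Module.finrank_fin_fun])
    by_cases h0 : h P₀ = 0
    · change x u * (h P₀ • (1 : K →L[ℂ] K)) = 0
      rw [h0, zero_smul, mul_zero]
    · have hu : u = 0 := by
        ext L
        by_contra hL
        exact hn L (subset_tsupport _ hL) P₀ (subset_tsupport _ h0) (by
          change L.1 ≤ P₀.1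
          rw [hP]; exact le_top)
      rw [hu, map_zero, zero_mul]

/-- the plane exists -/
theorem exists_pln {F : Type} [Field F] {G : ∀ j, Gr F (Fin (N + 1)) j →
    (CG k N j →⋆ₐ[ℂ] (K →L[ℂ] K))} (hN : 2 ≤ N) (hG : Cal G) (b z : Gr F (Fin (N + 1)) 1)
    (l ν : Gr F (Fin (N + 1)) 2) (hzl : z.1 ≤ l.1) (hzν : z.1 ≤ ν.1) (hbν : b.1 ≤ ν.1)
    (hbl : ¬ b.1 ≤ l.1) : ∃ p : CG k N 3 →⋆ₐ[ℂ] (K →L[ℂ] K),
      Pln (G 1 b) (G 1 z) (G 2 l) (G 2 ν) p := by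
  obtain h2 | h3 : N = 2 ∨ 3 ≤ N := by omega
  · subst h2
    let P₀ : Gr k (Fin 3) 3 := ⟨⊤, by rw [finrank_top, Module.finrank_fin_fun]⟩
    exact ⟨ev P₀, top_inc _ P₀, top_inc _ P₀, top_inc _ P₀, top_inc _ P₀⟩
  · let P : Gr F (Fin (N + 1)) 3 := ⟨b.1 ⊔ l.1, rank_join b l hbl⟩
    have hb : b.1 ≤ P.1 := le_sup_left
    have hl : l.1 ≤ P.1 := le_sup_right
    have hz : z.1 ≤ P.1 := hzl.trans hl
    have hbz : ¬ b.1 ≤ z.1 := fun h => hbl (h.trans hzl)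
    have hν : ν.1 ≤ P.1 := by
      have h1 : b.1 ⊔ z.1 = ν.1 := by
        refine Submodule.eq_of_le_of_finrank_le (sup_le hbν hzν) ?_
        rw [rank_join b z hbz, ν.2]
      rw [← h1]
      exact sup_le hb hz
    refine ⟨G 3 P, ⟨hG.com 1 3 le_rfl (by omega) h3 b P hb, hG.inc 1 3 le_rfl (by omega) h3 b P hb⟩,
      ⟨hG.com 1 3 le_rfl (by omega) h3 z P hz, hG.inc 1 3 le_rfl (by omega) h3 z P hz⟩,
      ⟨hG.com 2 3 (by omega) (by omega) h3 l P hl, hG.inc 2 3 (by omega) (by omega) h3 l P hl⟩,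
      ⟨hG.com 2 3 (by omega) (by omega) h3 ν P hν, hG.inc 2 3 (by omega) (by omega) h3 ν P hν⟩⟩

end plane

end Vale.Agent.P092.H68.Nj3
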