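import Vale.Agent.P092.H890.Mul

/-!
P092, TEAM N (helper68) for [N-K2] (helper589): the ratio lemma for locally constant functions, in
finite form.
-/

set_option linter.all false

open Metric Set Filter Topology
open scoped BigOperators

namespace Vale.Agent.P092.H68.TameU

open Vale.Agent.P092.H890

section proj

variable {K : Type*} [NormedAddCommGroup K] [InnerProductSpace ℂ K] [CompleteSpace K]
  {I : Type*}

/-- a finite orthogonal family of projections -/
structure OrthF (J : Finset I) (Q : I → (K →L[ℂ] K)) : Prop where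
  sa : ∀ j ∈ J, star (Q j) = Q j
  idem : ∀ j ∈ J, Q j * Q j = Q j
  orth : ∀ i ∈ J, ∀ j ∈ J, i ≠ j → Q i * Q j = 0

theorem OrthF.norm_sum_le {J : Finset I} {Q : I → (K →L[ℂ] K)} (h : OrthF J Q) {J' : Finset I}
    (hJ : J' ⊆ J) (x : K) : ‖(∑ j ∈ J', Q j) x‖ ≤ 1 * ‖x‖ := by
  classical
  have e1 : star (∑ j ∈ J', Q j) = ∑ j ∈ J', Q j := by
    rw [star_sum]
    exact Finset.sum_congr rfl fun j hj => h.sa j (hJ hj)
  have e2 : (∑ j ∈ J', Q j) * (∑ j ∈ J', Q j) = ∑ j ∈ J', Q j := by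
    rw [Finset.sum_mul]
    refine Finset.sum_congr rfl fun i hi => ?_
    rw [Finset.mul_sum, Finset.sum_eq_single i]
    · exact h.idem i (hJ hi)
    · intro j hj hij
      exact h.orth i (hJ hi) j (hJ hj) hij.symm
    · exact fun hn => (hn hi).elim
  have h1 : ‖∑ j ∈ J', Q j‖ ≤ 1 := by
    set P := ∑ j ∈ J', Q j with hP
    have h2 : ‖P‖ * ‖P‖ = ‖P‖ := by
      rw [← CStarRing.norm_star_mul_self, e1, e2]
    by_contra hc
    push Not at hc
    nlinarith
  exact (ContinuousLinearMap.le_opNorm _ x).trans (mul_le_mul_of_nonneg_right h1 (norm_nonneg x))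

end proj

section tame

variable {𝕜 : Type*} [NontriviallyNormedField 𝕜] [ProperSpace 𝕜] {ι : Type*} [Fintype ι]

/-- a function which is locally constant off `0` is uniformly locally constant on shells -/
theorem exists_delta {φ : (ι → 𝕜) → ℂ} (hφ : ∀ v, v ≠ 0 → ∀ᶠ w in 𝓝 v, φ w = φ v) {c C : ℝ}
    (hc : 0 < c) : ∃ δ : ℝ, 0 < δ ∧ ∀ v w : ι → 𝕜, c ≤ ‖v‖ → ‖v‖ ≤ C → ‖w - v‖ < δ →
      φ w = φ v := by
  have hA : IsCompact {v : ι → 𝕜 | c ≤ ‖v‖ ∧ ‖v‖ ≤ C} := by
    refine (isCompact_closedBall (0 : ι → 𝕜) C).of_isClosed_subset ?_ fun v hv => ?_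
    · exact (isClosed_le continuous_const continuous_norm).inter
        (isClosed_le continuous_norm continuous_const)
    · rw [mem_closedBall_zero_iff]
      exact hv.2
  obtain ⟨δ, hδ, h⟩ := lebesgue_number_lemma_of_metric (c := fun v : ι → 𝕜 =>
    interior {w | φ w = φ v}) hA (fun v => isOpen_interior) (fun v hv => by
      refine mem_iUnion.2 ⟨v, ?_⟩
      have hv0 : v ≠ 0 := by
        rintro rfl
        have := hv.1
        rw [norm_zero] at this
        linarith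
      exact mem_interior_iff_mem_nhds.2 (hφ v hv0))
  refine ⟨δ, hδ, fun v w h1 h2 hw => ?_⟩
  obtain ⟨v', hv'⟩ := h v ⟨h1, h2⟩
  have h3 : w ∈ interior {w | φ w = φ v'} := hv' (by rw [mem_ball, dist_eq_norm]; exact hw)
  have h4 : v ∈ interior {w | φ w = φ v'} := hv' (mem_ball_self hδ)
  have e1 : w ∈ {w | φ w = φ v'} := interior_subset h3
  have e2 : v ∈ {w | φ w = φ v'} := interior_subset h4
  rw [mem_setOf_eq] at e1 e2
  rw [e1, e2]

variable {α : Type*} [Fintype α]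

/-- **the finite form of the ratio lemma for locally constant functions**; `Q j` any family whose
partial sums are contractions -/
theorem tame_of_sub {φ : (ι → 𝕜) → ℂ} (hφ : ∀ v, v ≠ 0 → ∀ᶠ w in 𝓝 v, φ w = φ v) {B : ℝ}
    (hB : ∀ v, ‖φ v‖ ≤ B) {c C : ℝ} (hc : 0 < c) : ∃ M : ℝ, 0 ≤ M ∧
    ∀ (K : Type) [NormedAddCommGroup K] [NormedSpace ℂ K] (κ I : Type) (S : Finset κ)
      (J : Finset I) (Q : I → (K →L[ℂ] K)) (u : α → I → 𝕜) (w : κ → α → ι → 𝕜),
      (∀ J' ⊆ J, ∀ x, ‖(∑ j ∈ J', Q j) x‖ ≤ 1 * ‖x‖) →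
      (∀ a, ∀ j ∈ J, ‖u a j‖ ≤ 1) → (∀ k ∈ S, ∀ a, ‖w k a‖ ≤ C) →
      (∀ k ∈ S, ∀ j ∈ J, c ≤ ‖∑ a, u a j • w k a‖) →
      Mult S (fun k => ∑ j ∈ J, φ (∑ a, u a j • w k a) • Q j) M := by
  classical
  set n : ℝ := (Fintype.card α : ℝ) with hn
  have hn0 : 0 ≤ n := Nat.cast_nonneg _
  obtain ⟨δ, hδ, hδ'⟩ := exists_delta hφ (c := c) (C := n * |C|) hc
  have hB0 : 0 ≤ B := (norm_nonneg _).trans (hB 0)
  set η : ℝ := δ / (2 * (n * |C|) + 1) with hη
  have hden : 0 < 2 * (n * |C|) + 1 := by positivity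
  have hη0 : 0 < η := by positivity
  obtain ⟨t, -, htf, ht⟩ := (isCompact_closedBall (0 : α → 𝕜) 1).finite_cover_balls hη0
  lift t to Finset (α → 𝕜) using htf
  refine ⟨∑ z ∈ t, B * 1, Finset.sum_nonneg fun _ _ => by positivity, ?_⟩
  intro K _ _ κ I S J Q u w hsub hu hw hlow
  -- the cell of `j`
  have hz : ∀ j : J, ∃ z ∈ t, ‖(fun a => u a j.1) - z‖ < η := by
    intro j
    have h1 : (fun a => u a j.1) ∈ closedBall (0 : α → 𝕜) 1 := by
      rw [mem_closedBall_zero_iff, pi_norm_le_iff_of_nonneg zero_le_one]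
      exact fun a => hu a j.1 j.2
    obtain ⟨z, hzt, hz⟩ := mem_iUnion₂.1 (ht h1)
    exact ⟨z, hzt, by rwa [mem_ball, dist_eq_norm] at hz⟩
  choose z hzt hzη using hz
  set z' : I → (α → 𝕜) := fun j => if hj : j ∈ J then z ⟨j, hj⟩ else 0 with hz'
  have hz1 : ∀ j ∈ J, z' j ∈ t := fun j hj => by
    rw [hz']
    simp only [hj, dif_pos]
    exact hzt _
  have hz2 : ∀ j ∈ J, ‖(fun a => u a j) - z' j‖ < η := fun j hj => by
    have := hzη ⟨j, hj⟩
    rw [hz']
    simp only [hj, dif_pos]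
    exact this
  -- two indices in the same cell
  have hsame : ∀ k ∈ S, ∀ i ∈ J, ∀ j ∈ J, z' i = z' j →
      φ (∑ a, u a i • w k a) = φ (∑ a, u a j • w k a) := by
    intro k hk i hi j hj hij
    refine hδ' _ _ (hlow k hk j hj) ?_ ?_
    · calc ‖∑ a, u a j • w k a‖ ≤ ∑ a : α, ‖u a j • w k a‖ := norm_sum_le _ _
        _ ≤ ∑ a : α, |C| := by
            refine Finset.sum_le_sum fun a _ => ?_
            rw [norm_smul]
            calc ‖u a j‖ * ‖w k a‖ ≤ 1 * C :=
                  mul_le_mul (hu a j hj) (hw k hk a) (norm_nonneg _) zero_le_one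
              _ ≤ |C| := by rw [one_mul]; exact le_abs_self C
        _ = n * |C| := by rw [Finset.sum_const, Finset.card_univ, nsmul_eq_mul]
    · rw [← Finset.sum_sub_distrib]
      have h1 : ∀ a, ‖u a i - u a j‖ ≤ 2 * η := by
        intro a
        have h2 := (norm_le_pi_norm ((fun a => u a i) - z' i) a).trans (hz2 i hi).le
        have h3 := (norm_le_pi_norm ((fun a => u a j) - z' j) a).trans (hz2 j hj).le
        rw [Pi.sub_apply] at h2 h3
        have e : u a i - u a j = (u a i - z' i a) - (u a j - z' j a) := by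
          rw [hij]; ring
        rw [e]
        exact (norm_sub_le _ _).trans (by linarith)
      calc ‖∑ a, (u a i • w k a - u a j • w k a)‖
          ≤ ∑ a : α, ‖u a i • w k a - u a j • w k a‖ := norm_sum_le _ _
        _ ≤ ∑ a : α, 2 * η * |C| := by
            refine Finset.sum_le_sum fun a _ => ?_
            rw [← sub_smul, norm_smul]
            exact mul_le_mul (h1 a) ((hw k hk a).trans (le_abs_self C)) (norm_nonneg _)
              (by positivity)
        _ = η * (2 * (n * |C|)) := by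
            rw [Finset.sum_const, Finset.card_univ, nsmul_eq_mul]; ring
        _ < η * (2 * (n * |C|) + 1) := by
            have : 2 * (n * |C|) < 2 * (n * |C|) + 1 := by linarith
            exact mul_lt_mul_of_pos_left this hη0
        _ = δ := by rw [hη]; field_simp
  -- representatives
  set rep : (α → 𝕜) → κ → ℂ := fun y k =>
    if h : ∃ j ∈ J, z' j = y then φ (∑ a, u a h.choose • w k a) else 0 with hrep
  have hrep1 : ∀ k ∈ S, ∀ j ∈ J, rep (z' j) k = φ (∑ a, u a j • w k a) := by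
    intro k hk j hj
    have h : ∃ i ∈ J, z' i = z' j := ⟨j, hj, rfl⟩
    have e : rep (z' j) k = φ (∑ a, u a h.choose • w k a) := dif_pos h
    rw [e]
    exact hsame k hk _ h.choose_spec.1 _ hj h.choose_spec.2
  have hrepB : ∀ y k, ‖rep y k‖ ≤ B := by
    intro y k
    rw [hrep]
    by_cases h : ∃ j ∈ J, z' j = y
    · simp only [h, dif_pos]
      exact hB _
    · simp only [h, dif_neg, not_false_iff]
      rw [norm_zero]
      exact hB0
  have hcomb := Mult.comb (S := S) (K := K) t (a := fun k y => rep y k) (A := fun _ => B)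
    (M := fun _ => 1) (T := fun y => ∑ j ∈ J.filter (fun j => z' j = y), Q j)
    (fun _ _ => hB0) (fun k _ y _ => hrepB y k) (fun _ _ => zero_le_one)
    (fun y _ x => hsub _ (Finset.filter_subset _ _) x)
  refine hcomb.congr fun k hk => ?_
  rw [← Finset.sum_fiberwise_of_maps_to hz1]
  refine Finset.sum_congr rfl fun y _ => ?_
  rw [Finset.smul_sum]
  refine Finset.sum_congr rfl fun j hj => ?_
  obtain ⟨hj1, hj2⟩ := Finset.mem_filter.1 hj
  have := hrep1 k hk j hj1
  rw [hj2] at this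
  change rep y k • Q j = _
  rw [this]

/-- the same for orthogonal families of projections of a Hilbert space -/
theorem tame_loc {φ : (ι → 𝕜) → ℂ} (hφ : ∀ v, v ≠ 0 → ∀ᶠ w in 𝓝 v, φ w = φ v) {B : ℝ}
    (hB : ∀ v, ‖φ v‖ ≤ B) {c C : ℝ} (hc : 0 < c) : ∃ M : ℝ, 0 ≤ M ∧
    ∀ (K : Type) [NormedAddCommGroup K] [InnerProductSpace ℂ K] [CompleteSpace K] (κ I : Type)
      (S : Finset κ) (J : Finset I) (Q : I → (K →L[ℂ] K)) (u : α → I → 𝕜) (w : κ → α → ι → 𝕜),
      OrthF J Q → (∀ a, ∀ j ∈ J, ‖u a j‖ ≤ 1) → (∀ k ∈ S, ∀ a, ‖w k a‖ ≤ C) →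
      (∀ k ∈ S, ∀ j ∈ J, c ≤ ‖∑ a, u a j • w k a‖) →
      Mult S (fun k => ∑ j ∈ J, φ (∑ a, u a j • w k a) • Q j) M := by
  obtain ⟨M, hM, h⟩ := tame_of_sub (α := α) hφ hB (c := c) (C := C) hc
  exact ⟨M, hM, fun K _ _ _ κ I S J Q u w hQ h1 h2 h3 =>
    h K κ I S J Q u w (fun J' hJ' x => hQ.norm_sum_le hJ' x) h1 h2 h3⟩

end tame

end Vale.Agent.P092.H68.TameU
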